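import Vale.Agent.P354XO.Walk
import Vale.Agent.P354XD.Fun

/-!
The chart defined by four germs with exact weights: homogeneity, the hypotheses of Box, and the
push forward in the coordinates of the bundle of dyads.
-/

open scoped ContDiff
open Set Filter Topology Function Complex

namespace Vale.Agent.P354XO

open Vale.Agent.P354XG hiding Mp rep_sum
open Vale.Agent.P354XD hiding pb

section
variable {D : Set (ℝ × ℝ)} {f : E6 → ℂ} {m n : ℂ} {x : E6}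

/-- The Euler equations give the homogeneity. -/
theorem euler (df : ∀ x ∈ Om D, DifferentiableAt ℝ f x)
    (e : ∀ x ∈ Om D, ∀ w : ℂ, fderiv ℝ f x (0, 0, w • x.2.2) = (m * w + n * starRingEnd ℂ w) * f x)
    (hx : x ∈ Om D) (w : ℂ) : f (sc (exp w) x) = exp (m * w + n * starRingEnd ℂ w) * f x := by
  obtain ⟨k, hk⟩ : ∃ k, k = m * w + n * starRingEnd ℂ w := ⟨_, rfl⟩
  have d1 : ∀ (u : ℂ) (s : ℝ), HasDerivAt (fun s : ℝ => exp (s * u)) (exp (s * u) * u) s :=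
    fun u s => by simpa using ((ofRealCLM.hasDerivAt (x := s)).mul_const u).cexp
  have d2 : ∀ s : ℝ, HasDerivAt (fun s : ℝ => exp (s * -k) * f (sc (exp (s * w)) x)) 0 s := by
    intro s
    have o := om_sc hx (exp_ne_zero (s * w))
    have d3 : HasDerivAt (fun s : ℝ => sc (exp (s * w)) x) (0, 0, w • (sc (exp (s * w)) x).2.2) s := by
      have := (hasDerivAt_const s x.1).prodMk ((hasDerivAt_const s x.2.1).prodMk
        ((d1 w s).smul_const x.2.2))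
      rwa [mul_comm, mul_smul] at this
    have := (d1 (-k) s).mul ((df _ o).hasFDerivAt.comp_hasDerivAt s d3)
    rw [e _ o, ← hk] at this
    exact this.congr_deriv (by simp only [comp]; ring)
  have := is_const_of_deriv_eq_zero (fun s => (d2 s).differentiableAt) (fun s => (d2 s).deriv) 1 0
  simp only [ofReal_one, one_mul, ofReal_zero, zero_mul, exp_zero] at this
  rw [← hk, show f x = f (sc 1 x) by simp [sc_ap], ← this, ← mul_assoc, ← exp_add, add_neg_cancel,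
    exp_zero, one_mul]

end

theorem clm_e6 {V : Type} [NormedAddCommGroup V] [NormedSpace ℝ V] (A : E6 →L[ℝ] V) (w : E6) :
    A w = w.1 • A (v1 0) + w.2.1 • A (v1 1) + w.2.2.1.re • A (v1 2) + w.2.2.1.im • A (v2 2) +
      w.2.2.2.re • A (v1 3) + w.2.2.2.im • A (v2 3) := by
  simp only [← map_smul, ← map_add]
  congr 1
  ext <;> simp [v1, v2]

theorem norm_le6 {V : Type} [NormedAddCommGroup V] [NormedSpace ℝ V] {A : E6 →L[ℝ] V} {c : ℝ}
    (h1 : ∀ i, ‖A (v1 i)‖ ≤ c) (h2 : ∀ i, ‖A (v2 i)‖ ≤ c) : ‖A‖ ≤ 6 * c := by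
  have c0 : 0 ≤ c := (norm_nonneg _).trans (h1 0)
  refine A.opNorm_le_bound (by positivity) fun w => ?_
  have b : ∀ (s : ℝ) (u : V), |s| ≤ ‖w‖ → ‖u‖ ≤ c → ‖s • u‖ ≤ c * ‖w‖ := fun s u k k' => by
    rw [norm_smul, mul_comm]; exact mul_le_mul k' k (abs_nonneg _) c0
  have n2 := norm_snd_le w
  have n3 := (norm_snd_le w.2).trans n2
  have n4 := (norm_fst_le w.2.2).trans n3
  have n5 := (norm_snd_le w.2.2).trans n3
  rw [clm_e6 A w]
  refine (norm_add_le_of_le (norm_add_le_of_le (norm_add_le_of_le (norm_add_le_of_le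
    (norm_add_le_of_le (b _ _ (norm_fst_le w) (h1 0)) (b _ _ ((norm_fst_le w.2).trans n2) (h1 1)))
    (b _ _ ((abs_re_le_norm _).trans n4) (h1 2))) (b _ _ ((abs_im_le_norm _).trans n4) (h2 2)))
    (b _ _ ((abs_re_le_norm _).trans n5) (h1 3))) (b _ _ ((abs_im_le_norm _).trans n5)
    (h2 3))).trans_eq (by ring)

theorem sum_zc (A : E6 →L[ℝ] ℂ) (w : E6) :
    A w = ∑ i, zc i w * (d1 i * A (v1 i) + d2 i * A (v2 i)) := by
  have c : ∀ z : ℂ, starRingEnd ℂ z = z.re - z.im * I := fun z => by apply Complex.ext <;> simp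
  rw [clm_e6 A w]
  simp [Fin.sum_univ_six, zc, d1, d2, v1, v2, c]
  linear_combination (A (0, 0, 1, 0) / 2 - I * A (0, 0, I, 0) / 2) * re_add_im w.2.2.1 +
    (A (0, 0, 0, 1) / 2 - I * A (0, 0, 0, I) / 2) * re_add_im w.2.2.2 +
    (w.2.2.1.im * A (0, 0, I, 0) + w.2.2.2.im * A (0, 0, 0, I)) * I_mul_I

variable {J : Type} {G G2 : Filter (J × E6)} [Loc G] [Loc G2]

theorem z_lin (i : Fin 6) : (hp G).z i = lin (zc i) := rfl

theorem vf_d (i : Fin 6) : VF ((hp G).d i) := ((vf_pd _).smul _).add ((vf_pd _).smul _)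
theorem vf_P : VF (hp G).P := ((vf_d 3).smul _).sub ((vf_d 2).smul _)
theorem vf_Q : VF (hp G).Q := ((vf_d 5).smul _).sub ((vf_d 4).smul _)
theorem vf_H : VF (hp G).H := ((vf_d 2).smul _).add ((vf_d 3).smul _)
theorem vf_B : VF (hp G).B := ((vf_d 4).smul _).add ((vf_d 5).smul _)
theorem vf_V (e1 e2 e3 e4 e5 e6 : Sm G) : VF ((hp G).kc.V e1 e2 e3 e4 e5 e6) :=
  ((((((vf_d 0).smul _).add ((vf_d 1).smul _)).add (vf_P.smul _)).add (vf_Q.smul _)).add
    (vf_H.smul _)).add (vf_B.smul _)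
theorem vf_L (a : Fin 4) : VF ((hp G).L a) := vf_V _ _ _ _ _ _
theorem vf_act (g : Fin 4 → Fin 4 → Sm G) (Γ : Fin 4 → Fin 4 → Fin 4 → Sm G) (u : Op (Sm G)) :
    VF (((hp G).geo g Γ).act u) :=
  ((Co.VF.sum _ fun a _ => (vf_L a).smul _).add (vf_H.smul _)).add (vf_B.smul _)

/-- The GHP derivations of a frame are vector fields. -/
theorem gv_geo (g : Fin 4 → Fin 4 → Sm G) (Γ : Fin 4 → Fin 4 → Fin 4 → Sm G)
    (l n m mb : Vec (Sm G)) : GV (co G) (((hp G).geo g Γ).ghp l n m mb) :=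
  ⟨vf_act g Γ _, vf_act g Γ _, vf_act g Γ _, vf_act g Γ _, vf_H, vf_B⟩

theorem d_lin (i : Fin 6) (ψ : E6 →L[ℝ] ℂ) :
    (hp G).d i (lin ψ) = algebraMap ℂ _ (d1 i * ψ (v1 i) + d2 i * ψ (v2 i)) := by
  rw [hp_d, pd_lin, pd_lin, map_add, map_mul, map_mul]

theorem d_z (i j : Fin 6) : (hp G).d i ((hp G).z j) = if i = j then 1 else 0 := by
  have e : d1 i * zc j (v1 i) + d2 i * zc j (v2 i) = if i = j then 1 else 0 := by
    fin_cases i <;> fin_cases j <;> simp [d1, d2, v1, v2, zc] <;> ring_nf <;> simp <;> norm_num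
  rw [z_lin, d_lin, e]
  split_ifs <;> simp

theorem lin_zc (ψ : E6 →L[ℝ] ℂ) :
    (lin ψ : Sm G) = ∑ i, algebraMap ℂ _ (d1 i * ψ (v1 i) + d2 i * ψ (v2 i)) * (hp G).z i :=
  (rs_mk (sm_lin ψ)).ext (Rs.sum _ fun i => (rs_alg _).mul (rs_z i)) (.of_forall fun p =>
    (sum_zc ψ p.2).trans (Finset.sum_congr rfl fun _ _ => mul_comm _ _))

/-- A vector field in the coordinates z. -/
theorem VF.eq_z {X : Der (Sm G)} (h : VF X) : X = ∑ i, X ((hp G).z i) • (hp G).d i := by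
  refine h.ext (Co.VF.sum _ fun i _ => (vf_d i).smul _) fun ψ => ?_
  refine Eq.trans ?_ ((⟨(hp G).z, (hp G).d⟩ : Co (Sm G) (Fin 6)).vf_ap _ _).symm
  simp only [d_lin]
  rw [lin_zc, map_sum]
  exact Finset.sum_congr rfl fun i _ => by rw [D_mul, D_alg, mul_zero, add_zero, mul_comm]

theorem VF.ext_z {X Y : Der (Sm G)} (h : VF X) (h' : VF Y)
    (e : ∀ i, X ((hp G).z i) = Y ((hp G).z i)) : X = Y := by
  rw [h.eq_z, h'.eq_z]; simp only [e]

theorem rs_d (i : Fin 6) (u : Sm G) : Rs ((hp G).d i u) fun p =>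
    d1 i * fderiv ℝ (sl (rep u) p.1) p.2 (v1 i) + d2 i * fderiv ℝ (sl (rep u) p.1) p.2 (v2 i) := by
  rw [hp_d]
  exact ((rs_alg _).mul ((rs_rep u).pd _)).add ((rs_alg _).mul ((rs_rep u).pd _))

theorem ev_euler {u : Sm G} {m n : ℂ} (hH : (hp G).H u = algebraMap ℂ _ m * u)
    (hB : (hp G).B u = algebraMap ℂ _ n * u) : ∀ᶠ p in G, ∀ w : ℂ,
    fderiv ℝ (sl (rep u) p.1) p.2 (0, 0, w • p.2.2.2) = (m * w + n * starRingEnd ℂ w) * rep u p := by
  rw [Hp.H_ap] at hH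
  rw [Hp.B_ap] at hB
  filter_upwards [(((rs_z 2).mul (rs_d 2 u)).add ((rs_z 3).mul (rs_d 3 u))).eq
    (hH ▸ (rs_alg m).mul (rs_rep u)), (((rs_z 4).mul (rs_d 4 u)).add ((rs_z 5).mul (rs_d 5 u))).eq
    (hB ▸ (rs_alg n).mul (rs_rep u))] with p h1 h2 w
  rw [sum_zc, Fin.sum_univ_six]
  simp only [zc, Matrix.cons_val, ContinuousLinearMap.comp_apply] at h1 h2 ⊢
  simp at h1 h2 ⊢
  linear_combination w * h1 + starRingEnd ℂ w * h2

namespace Sec
variable {a b : J × E6 → E6} (h : Sec G2 G a b)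

omit [Loc G2] in
theorem cmp_eq {ψ : E6 →L[ℝ] ℂ} {u : Sm G} (e : rep u =ᶠ[G] fun p => ψ (a p)) : h.cmp ψ = u :=
  ext_rep ((rep_mk _ _).trans e.symm)

theorem pb_z (i : Fin 6) : h.pb (h.cmp (zc i)) = (hp G2).z i := h.pb_cmp _

/-- The push forward in the coordinates z. -/
theorem push_z {X : Der (Sm G)} (hX : VF X) :
    h.push X = ∑ i, h.pb (X (h.cmp (zc i))) • (hp G2).d i := by
  rw [(h.vf X).eq_z]
  simp only [z_lin, h.push_lin hX]

theorem push_eq_z {X : Der (Sm G)} {Y : Der (Sm G2)} (hX : VF X) (hY : VF Y)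
    (e : ∀ i, h.pb (X (h.cmp (zc i))) = Y ((hp G2).z i)) : h.push X = Y :=
  (h.vf X).ext_z hY fun i => (h.push_lin hX _).trans (e i)

theorem push_H (e : ∀ i, (hp G).H (h.cmp (zc i)) = ![0, 0, h.cmp (zc 2), h.cmp (zc 3), 0, 0] i) :
    h.push (hp G).H = (hp G2).H := h.push_eq_z vf_H vf_H fun i => by
  rw [e, Hp.H_ap]
  fin_cases i <;> simp [d_z, h.pb_z]

theorem push_B (e : ∀ i, (hp G).B (h.cmp (zc i)) = ![0, 0, 0, 0, h.cmp (zc 4), h.cmp (zc 5)] i) :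
    h.push (hp G).B = (hp G2).B := h.push_eq_z vf_B vf_B fun i => by
  rw [e, Hp.B_ap]
  fin_cases i <;> simp [d_z, h.pb_z]

end Sec

/-- The map with components v, r, x1, x2. -/
noncomputable def ch (v r x1 x2 : Sm G) (p : J × E6) : E6 :=
  ((rep v p).re, (rep r p).re, rep x1 p, rep x2 p)

/-- Reality and exact weights. -/
structure Wts (v r x1 x2 : Sm G) : Prop where
  cv : cj v = v
  cr : cj r = r
  Hv : (hp G).H v = 0
  Hr : (hp G).H r = 0
  H1 : (hp G).H x1 = x1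
  B1 : (hp G).B x1 = 0
  H2 : (hp G).H x2 = x2
  B2 : (hp G).B x2 = 0

theorem cj_H (u : Sm G) : cj ((hp G).H u) = (hp G).B (cj u) := by
  have e : ∀ i, cj ((hp G).z i) = (hp G).z (![0, 1, 4, 5, 2, 3] i) := fun i =>
    (rs_z i).cj.ext (rs_z _) (.of_forall fun p => by fin_cases i <;> simp [zc])
  simp only [Hp.H_ap, Hp.B_ap, hp_d, map_add, map_mul, e, cj_alg, cj_pd]
  simp [d1, d2, v1, v2, map_ofNat]

theorem cj_B (u : Sm G) : cj ((hp G).B u) = (hp G).H (cj u) := by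
  have := congrArg cj (cj_H (cj u))
  rw [cj_cj, cj_cj] at this
  exact this.symm

theorem re_of {u : Sm G} (h : cj u = u) : ∀ᶠ p in G, ((rep u p).re : ℂ) = rep u p :=
  (rep_cj u).mono fun p e => conj_eq_iff_re.1 (by rw [h] at e; exact e.symm)

variable {v r x1 x2 : Sm G}

theorem ch_sm : ∀ᶠ p in G, ContDiffAt ℝ ∞ (fun y => ch v r x1 x2 (p.1, y)) p.2 := by
  filter_upwards [rep_sm v, rep_sm r, rep_sm x1, rep_sm x2] with p h1 h2 h3 h4
  exact (reCLM.contDiff.contDiffAt.comp _ h1).prodMk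
    ((reCLM.contDiff.contDiffAt.comp _ h2).prodMk (h3.prodMk h4))

namespace Wts
variable (w : Wts v r x1 x2) {b : J × E6 → E6} (h : Sec G2 G (ch v r x1 x2) b)
include w

theorem Bv : (hp G).B v = 0 := by rw [← w.cv, ← cj_H, w.Hv, map_zero]
theorem Br : (hp G).B r = 0 := by rw [← w.cr, ← cj_H, w.Hr, map_zero]

omit [Loc G2] in
theorem cmp (i : Fin 6) : h.cmp (zc i) = ![v, r, x1, x2, cj x1, cj x2] i := by
  fin_cases i
  · exact h.cmp_eq ((re_of w.cv).mono fun _ e => e.symm)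
  · exact h.cmp_eq ((re_of w.cr).mono fun _ e => e.symm)
  · exact h.cmp_eq .rfl
  · exact h.cmp_eq .rfl
  · exact h.cmp_eq (rep_cj x1)
  · exact h.cmp_eq (rep_cj x2)

theorem push_H : h.push (hp G).H = (hp G2).H := h.push_H fun i => by
  fin_cases i <;> simp [w.cmp, w.Hv, w.Hr, w.H1, w.H2, ← cj_B, w.B1, w.B2]

theorem push_B : h.push (hp G).B = (hp G2).B := h.push_B fun i => by
  fin_cases i <;> simp [w.cmp, w.Bv, w.Br, w.H1, w.H2, ← cj_H, w.B1, w.B2]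

end Wts

section fam
variable {F : Filter J} {D : J → Set (ℝ × ℝ)}

/-- u tends to zero along F, uniformly on the unit spinors. -/
def Sm1 (u : Sm (nb F fun j => Om (D j))) : Prop :=
  ∀ e > 0, ∀ᶠ j in F, ∀ x ∈ Om (D j), ‖x.2.2‖ = 1 → ‖rep u (j, x)‖ ≤ e

theorem ev_hom {u : Sm (nb F fun j => Om (D j))} {m n : ℂ} (hH : (hp _).H u = algebraMap ℂ _ m * u)
    (hB : (hp _).B u = algebraMap ℂ _ n * u) : ∀ᶠ j in F, ∀ x ∈ Om (D j), ∀ w : ℂ,
      rep u (j, sc (exp w) x) = exp (m * w + n * starRingEnd ℂ w) * rep u (j, x) := by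
  filter_upwards [ev_nb_on (ev_euler hH hB), ev_nb_on (rep_sm u).diff] with j h1 h2 x hx w
  exact euler (f := sl (rep u) j) h2 h1 hx w

variable {v r x1 x2 : Sm (nb F fun j => Om (D j))}

theorem Wts.eqv (w : Wts v r x1 x2) : ∀ᶠ j in F, ∀ x ∈ Om (D j), ∀ z : ℂ, z ≠ 0 →
    ch v r x1 x2 (j, sc z x) = sc z (ch v r x1 x2 (j, x)) := by
  filter_upwards [ev_hom (u := v) (m := 0) (n := 0) (by simp [w.Hv]) (by simp [w.Bv]),
    ev_hom (u := r) (m := 0) (n := 0) (by simp [w.Hr]) (by simp [w.Br]),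
    ev_hom (u := x1) (m := 1) (n := 0) (by simp [w.H1]) (by simp [w.B1]),
    ev_hom (u := x2) (m := 1) (n := 0) (by simp [w.H2]) (by simp [w.B2])] with j h1 h2 h3 h4 x hx z
    hz
  rw [← exp_log hz, ch, h1 x hx, h2 x hx, h3 x hx, h4 x hx]
  simp [ch, sc_ap]

/-- The hypotheses of Box hold eventually. -/
theorem Wts.box (w : Wts v r x1 x2) (o : ∀ᶠ j in F, IsOpen (D j)) {l : J → ℝ}
    (hl : ∀ᶠ j in F, 1 / 2 ≤ l j) (s0 : ∀ u, Sm1 (pd u (v - cst (fun j => l j) * (hp _).z 0)))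
    (s1 : ∀ u, Sm1 (pd u (r - (hp _).z 1))) (s2 : ∀ u, Sm1 (pd u (x1 - (hp _).z 2)))
    (s3 : ∀ u, Sm1 (pd u (x2 - (hp _).z 3))) (t1 : Sm1 (r - (hp _).z 1))
    (t2 : Sm1 (x1 - (hp _).z 2)) (t3 : Sm1 (x2 - (hp _).z 3)) {c e : ℝ} (c0 : 0 < c)
    (hc : c ≤ 1 / 8) (e0 : 0 < e) (he : e ≤ 1 / 8) :
    ∀ᶠ j in F, Box (D j) (fun x => ch v r x1 x2 (j, x)) (l j) c e := by
  have key : ∀ u, ∀ᶠ j in F, ∀ x ∈ Om (D j), ‖x.2.2‖ = 1 →
      ‖(fderiv ℝ (fun x => ch v r x1 x2 (j, x)) x - dg (l j)) u‖ ≤ c / 6 := fun u => by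
    have r0 : Rs (pd u (v - cst (fun j => l j) * (hp _).z 0)) fun p =>
        pdF u (rep v) p - l p.1 * zc 0 u := by
      rw [D_sub, D_mul, pd_cst, mul_zero, add_zero, z_lin, pd_lin]
      exact ((rs_rep v).pd u).sub ((rs_mk (smF_const fun j => (l j : ℂ))).mul (rs_alg _))
    have r1 : ∀ (y : Sm (nb F fun j => Om (D j))) i, Rs (pd u (y - (hp _).z i)) fun p =>
        pdF u (rep y) p - zc i u := fun y i => by
      rw [D_sub, z_lin, pd_lin]
      exact ((rs_rep y).pd u).sub (rs_alg _)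
    filter_upwards [s0 u (c / 6) (by positivity), s1 u (c / 6) (by positivity),
      s2 u (c / 6) (by positivity), s3 u (c / 6) (by positivity), ev_nb_on r0, ev_nb_on (r1 r 1),
      ev_nb_on (r1 x1 2), ev_nb_on (r1 x2 3), ev_nb_on (rep_sm v).diff, ev_nb_on (rep_sm r).diff,
      ev_nb_on (rep_sm x1).diff, ev_nb_on (rep_sm x2).diff] with j a0 a1 a2 a3 b0 b1 b2 b3 f0 f1
      f2 f3 x hx n
    have f : fderiv ℝ (fun x => ch v r x1 x2 (j, x)) x = _ :=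
      ((reCLM.hasFDerivAt.comp x (f0 x hx).hasFDerivAt).prodMk
        ((reCLM.hasFDerivAt.comp x (f1 x hx).hasFDerivAt).prodMk
          ((f2 x hx).hasFDerivAt.prodMk (f3 x hx).hasFDerivAt))).fderiv
    have g0 := (abs_re_le_norm _).trans (a0 x hx n)
    have g1 := (abs_re_le_norm _).trans (a1 x hx n)
    have g2 := a2 x hx n
    have g3 := a3 x hx n
    rw [b0 x hx] at g0
    rw [b1 x hx] at g1
    rw [b2 x hx] at g2
    rw [b3 x hx] at g3
    rw [f]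
    exact max_le (by simpa [dg_ap, zc, pdF] using g0) (max_le (by simpa [dg_ap, zc, pdF] using g1)
      (max_le g2 g3))
  filter_upwards [o, hl, w.eqv, ev_nb_on (ch_sm (v := v) (r := r) (x1 := x1) (x2 := x2)),
    eventually_all.2 fun i => key (v1 i), eventually_all.2 fun i => key (v2 i), t1 e e0, t2 e e0,
    t3 e e0, ev_nb_on ((rs_rep r).sub (rs_z 1)), ev_nb_on ((rs_rep x1).sub (rs_z 2)),
    ev_nb_on ((rs_rep x2).sub (rs_z 3))] with j h1 h2 h3 h4 h5 h6 a1 a2 a3 b1 b2 b3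
  refine ⟨h1, h4, h3, fun x hx n => ?_, fun x hx n => ?_, fun x hx n => ?_, h2, c0.le, hc, e0.le, he⟩
  · exact (norm_le6 (fun i => h5 i x hx n) fun i => h6 i x hx n).trans_eq (by ring)
  · have := (abs_re_le_norm _).trans (a1 x hx n)
    rw [b1 x hx] at this
    simpa [ch, zc] using this
  · have g2 := a2 x hx n
    have g3 := a3 x hx n
    rw [b2 x hx] at g2
    rw [b3 x hx] at g3
    exact max_le g2 g3

end fam

/-- The lower bound of the derivative on shells. -/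
theorem lowD_of {F : Filter J} {D : J → Set (ℝ × ℝ)} {K : J → Set E6} {a : J × E6 → E6}
    {l c e : J → ℝ} {ρ : ℝ} (h : ∀ᶠ j in F, Box (D j) (fun x => a (j, x)) (l j) (c j) (e j))
    (h0 : 1 ≤ ρ) (s : ∀ᶠ j in F, ∀ x ∈ K j, x ∈ Om (D j) ∧ ρ⁻¹ ≤ ‖x.2.2‖ ∧ ‖x.2.2‖ ≤ ρ) :
    LowD F K a :=
  ⟨1 / (4 * ρ), by positivity, (h.and s).mono fun _ k x hx =>
    k.1.low (k.2 x hx).1 h0 (k.2 x hx).2.1 (k.2 x hx).2.2⟩

end Vale.Agent.P354XO
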