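import Vale.Agent.P354XO.Nat
import Vale.Agent.P354XI.Inst

/-!
Equivariant charts: the sections on the rings, the map of the base and the pulled back metric.
-/

open scoped ContDiff
open Set Filter Topology Complex
open Function (invFunOn)

namespace Vale.Agent.P354XO

open Vale.Agent.P354n (R4)
open Vale.Agent.P354XG hiding Mp rep_sum
open Vale.Agent.P354XD
open Vale.Agent.P354XI (on fv fv_in ev_on)
open Vale.Agent.P354XE (Tw)

theorem euler_of {V : Type} [NormedAddCommGroup V] [NormedSpace ℂ V] {f : E6 → V} {x : E6} {w k : ℂ}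
    (df : DifferentiableAt ℝ f x) (e : ∀ s : ℝ, f (sc (exp (s * w)) x) = exp (s * k) • f x) :
    fderiv ℝ f x (0, 0, w • x.2.2) = k • f x := by
  have d1 : ∀ u : ℂ, HasDerivAt (fun s : ℝ => exp (s * u)) u 0 :=
    fun u => by simpa using ((ofRealCLM.hasDerivAt (x := 0)).mul_const u).cexp
  have d3 : HasDerivAt (fun s : ℝ => sc (exp (s * w)) x) (0, 0, w • x.2.2) 0 :=
    (hasDerivAt_const 0 x.1).prodMk ((hasDerivAt_const 0 x.2.1).prodMk ((d1 w).smul_const x.2.2))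
  have := HasFDerivAt.comp_hasDerivAt_of_eq (0 : ℝ) df.hasFDerivAt d3 (by simp [sc_ap])
  exact this.unique (((d1 k).smul_const (f x)).congr_of_eventuallyEq (.of_forall e))

variable {J : Type} {G G2 : Filter (J × E6)} [Loc G] [Loc G2]

/-- The weights of a homogeneous function. -/
theorem wt_of {u : Sm G} {f : J × E6 → ℂ} (r : Rs u f) {m n : ℂ} (e : ∀ᶠ p in G, ∀ w : ℂ,
    f (p.1, sc (exp w) p.2) = exp (m * w + n * starRingEnd ℂ w) * f p) :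
    (hp G).H u = algebraMap ℂ _ m * u ∧ (hp G).B u = algebraMap ℂ _ n * u := by
  have k : ∀ᶠ p in G, ∀ w : ℂ, fderiv ℝ (sl (rep u) p.1) p.2 (0, 0, w • p.2.2.2) =
      (m * w + n * starRingEnd ℂ w) * rep u p := by
    filter_upwards [r, sl_congr r, r.sm.diff, e] with p h1 h2 h3 h4 w
    rw [h2.fderiv_eq, h1]
    exact euler_of h3 fun s => (h4 _).trans (by
      rw [map_mul, conj_ofReal, smul_eq_mul]; congr 2; ring)
  rw [Hp.H_ap, Hp.B_ap]
  refine ⟨(((rs_z 2).mul (rs_d 2 u)).add ((rs_z 3).mul (rs_d 3 u))).ext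
    ((rs_alg m).mul (rs_rep u)) ?_, (((rs_z 4).mul (rs_d 4 u)).add ((rs_z 5).mul (rs_d 5 u))).ext
    ((rs_alg n).mul (rs_rep u)) ?_⟩ <;> filter_upwards [k] with p h <;> have h1 := h 1 <;>
    have h2 := h I <;> rw [sum_zc, Fin.sum_univ_six] at h1 h2 <;>
    simp only [zc, Matrix.cons_val, ContinuousLinearMap.comp_apply] at h1 h2 ⊢ <;>
    simp at h1 h2 ⊢
  · linear_combination (exp := 1) h1 / 2 - I / 2 * h2 + ((p.2.2.2.1 * (d1 2 * fderiv ℝ
      (sl (rep u) p.1) p.2 (v1 2) + d2 2 * fderiv ℝ (sl (rep u) p.1) p.2 (v2 2)) + p.2.2.2.2 *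
      (d1 3 * fderiv ℝ (sl (rep u) p.1) p.2 (v1 3) + d2 3 * fderiv ℝ (sl (rep u) p.1) p.2 (v2 3)) -
      starRingEnd ℂ p.2.2.2.1 * (d1 4 * fderiv ℝ (sl (rep u) p.1) p.2 (v1 4) + d2 4 * fderiv ℝ
      (sl (rep u) p.1) p.2 (v2 4)) - starRingEnd ℂ p.2.2.2.2 * (d1 5 * fderiv ℝ (sl (rep u) p.1) p.2
      (v1 5) + d2 5 * fderiv ℝ (sl (rep u) p.1) p.2 (v2 5)) - (m - n) * rep u p) / 2) * I_mul_I
  · linear_combination (exp := 1) h1 / 2 + I / 2 * h2 - ((p.2.2.2.1 * (d1 2 * fderiv ℝ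
      (sl (rep u) p.1) p.2 (v1 2) + d2 2 * fderiv ℝ (sl (rep u) p.1) p.2 (v2 2)) + p.2.2.2.2 *
      (d1 3 * fderiv ℝ (sl (rep u) p.1) p.2 (v1 3) + d2 3 * fderiv ℝ (sl (rep u) p.1) p.2 (v2 3)) -
      starRingEnd ℂ p.2.2.2.1 * (d1 4 * fderiv ℝ (sl (rep u) p.1) p.2 (v1 4) + d2 4 * fderiv ℝ
      (sl (rep u) p.1) p.2 (v2 4)) - starRingEnd ℂ p.2.2.2.2 * (d1 5 * fderiv ℝ (sl (rep u) p.1) p.2
      (v1 5) + d2 5 * fderiv ℝ (sl (rep u) p.1) p.2 (v2 5)) - (m - n) * rep u p) / 2) * I_mul_I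

theorem sq_of {a b : J × E6 → E6} (h : Sec G2 G a b) (o : Off G) (o2 : Off G2)
    (e : ∀ᶠ p in G, ∀ z : ℂ, z ≠ 0 → a (p.1, sc z p.2) = sc z (a p)) : Sq G2 G a b := by
  have k := fun i => wt_of (u := h.cmp (zc i)) (m := ![0, 0, 1, 1, 0, 0] i)
    (n := ![0, 0, 0, 0, 1, 1] i) (rs_mk _) (e.mono fun p k w => by
      rw [k _ (exp_ne_zero w)]
      fin_cases i <;> simp [zc, sc_ap, exp_conj])
  refine ⟨h, o, o2, h.push_H fun i => (k i).1.trans ?_, h.push_B fun i => (k i).2.trans ?_⟩ <;>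
    fin_cases i <;> simp

/-- An equivariant diffeomorphism of cones. -/
structure Cht (O : Set E6) (a : E6 → E6) : Prop where
  eqv : Eqv O a
  dif : Dif O a
  pos : ∀ x ∈ O, 0 < (a x).2.1

/-- The map of the base which belongs to the inverse of a. -/
noncomputable def b4 (O : Set E6) (a : E6 → E6) : R4 → R4 := dn4 (invFunOn a O)

theorem Box.cht {D : Set (ℝ × ℝ)} {a : E6 → E6} {l c e κ : ℝ} (h : Box D a l c e)
    (w : Walk κ (2 * e) D) (k0 : 0 ≤ κ) (hk : (κ + 2) * c < 1 / 2) (p : ∀ q ∈ D, e < q.2) :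
    Cht (Om D) a := ⟨h.eqv' fun q k => h.e0.trans_lt (p q k), h.dif w k0 hk, h.r_pos p⟩

namespace Cht
variable {O O' : Set E6} {a a' : E6 → E6} (h : Cht O a) {x y : E6}
include h

theorem cn : Cn (a '' O) := h.eqv.cn_im h.dif h.pos

theorem symm : Cht (a '' O) (invFunOn a O) :=
  ⟨h.eqv.symm h.dif h.pos, h.dif.symm, fun _ hy => (h.eqv.pos _ (Dif.mem hy)).1⟩

theorem mono (c : Cn O') (s : O' ⊆ O) : Cht O' a :=
  ⟨h.eqv.mono c s, h.dif.mono c.op s, fun x hx => h.pos x (s hx)⟩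

theorem comp (h' : Cht O' a') (m : MapsTo a O O') : Cht O (a' ∘ a) :=
  ⟨⟨h.eqv.toCn, (h.dif.comp h'.dif m).sm, fun x hx z hz => by
    rw [Function.comp, h.eqv.eqv x hx z hz, h'.eqv.eqv _ (m hx) z hz, Function.comp],
    fun _ hx => h'.eqv.ne _ (m hx)⟩, h.dif.comp h'.dif m, fun _ hx => h'.pos _ (m hx)⟩

theorem dif4 : Dif (pj '' O) (dn4 a) := h.eqv.dif4 h.dif h.pos
theorem dif_b4 : Dif (pj '' (a '' O)) (b4 O a) := h.eqv.dif4' h.dif h.pos
theorem b4_pj (hy : y ∈ a '' O) : b4 O a (pj y) = pj (invFunOn a O y) := h.symm.eqv.pj_dn hy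
theorem b4_a (hx : x ∈ O) : b4 O a (pj (a x)) = pj x := by
  rw [h.b4_pj ⟨x, hx, rfl⟩, h.dif.left hx]

theorem vac {g : Tw} (hy : y ∈ a '' O) (v : VacAt g (pj (invFunOn a O y))) :
    VacAt (P354XE.pb (b4 O a) g) (pj y) := vacAt_pb h.dif_b4 ⟨y, hy, rfl⟩ (h.b4_pj hy ▸ v)

end Cht

section fam
variable {F : Filter J} {O K K' : J → Set E6} {a : J × E6 → E6}
  (h : ∀ᶠ j in F, Cht (O j) fun x => a (j, x)) (hK : ∀ᶠ j in F, K j ⊆ O j)
  (hK' : ∀ᶠ j in F, K' j ⊆ (fun x => a (j, x)) '' K j)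

theorem ev_in {O K : J → Set E6} (o : ∀ᶠ j in F, IsOpen (O j)) (hK : ∀ᶠ j in F, K j ⊆ O j)
    {P : J × E6 → Prop} (h : ∀ᶠ j in F, ∀ x ∈ O j, P (j, x)) : ∀ᶠ p in nb F K, P p :=
  ev_nb.2 (by filter_upwards [o, hK, h] with j h1 h2 h3 x hx using
    (h1.eventually_mem (h2 hx)).mono h3)

include h hK hK'

theorem ev_im {P : J × E6 → Prop} (e : ∀ᶠ j in F, ∀ y ∈ (fun x => a (j, x)) '' O j, P (j, y)) :
    ∀ᶠ p in nb F K', P p :=
  ev_in (h.mono fun _ k => k.cn.op) ((hK.and hK').mono fun _ k => k.2.trans (image_mono k.1)) e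

theorem sq_iv : Sq (nb F K') (nb F K) a (iv O a) :=
  sq_of (sec_iv (h.mono fun _ k => k.dif) hK hK')
    (ev_in (h.mono fun _ k => k.dif.op) hK (h.mono fun _ k x hx =>
      ⟨(k.eqv.pos x hx).1.ne', (k.eqv.pos x hx).2⟩))
    (ev_im h hK hK' (h.mono fun _ k y hy => ⟨(k.cn.pos y hy).1.ne', (k.cn.pos y hy).2⟩))
    (ev_in (h.mono fun _ k => k.dif.op) hK (h.mono fun _ k => k.eqv.eqv))

theorem iv_s4 : ∀ᶠ p in nb F K', ContDiffAt ℝ ∞ (b4 (O p.1) fun x => a (p.1, x)) (pj p.2) :=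
  ev_im h hK hK' (h.mono fun _ k y hy => k.dif_b4.sm _ ⟨y, hy, rfl⟩)

theorem iv_e4 : ∀ᶠ p in nb F K', pj (iv O a p) = b4 (O p.1) (fun x => a (p.1, x)) (pj p.2) :=
  ev_im h hK hK' (h.mono fun _ k _ hy => (k.b4_pj hy).symm)

variable {g : J → Tw} (v : ∀ᶠ p in nb F K, VacAt (g p.1) (pj p.2)) (k : ℝ)
include v

theorem iv_vac : ∀ᶠ p in nb F K',
    VacAt (P354XE.pb (b4 (O p.1) fun x => a (p.1, x)) (g p.1)) (pj p.2) := by
  filter_upwards [(sq_iv h hK hK').tend.eventually v, ev_im h hK hK' (P := fun p =>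
    VacAt (g p.1) (pj (iv O a p)) → VacAt (P354XE.pb (b4 (O p.1) fun x => a (p.1, x)) (g p.1))
      (pj p.2)) (h.mono fun _ k _ hy => k.vac hy)] with p h1 h2 using h2 h1

theorem iv_wn {F0 : Fr (Sm (nb F K))} (N : F0.WN (geo _ k g)) : ((sq_iv h hK hK').fr F0).WN
    (geo _ k fun j => P354XE.pb (b4 (O j) fun x => a (j, x)) (g j)) :=
  (sq_iv h hK hK').geo_wn (b4 := fun j => b4 (O j) fun x => a (j, x)) (iv_s4 h hK hK')
    (iv_e4 h hK hK') v (iv_vac h hK hK' v) k N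

theorem iv_ghp {F0 : Fr (Sm (nb F K))} (N : F0.WN (geo _ k g)) : ((sq_iv h hK hK').fr F0).ghp
    (geo _ k fun j => P354XE.pb (b4 (O j) fun x => a (j, x)) (g j)) =
      (sq_iv h hK hK').ghp (F0.ghp (geo _ k g)) :=
  (sq_iv h hK hK').geo_ghp (b4 := fun j => b4 (O j) fun x => a (j, x)) (iv_s4 h hK hK')
    (iv_e4 h hK hK') v (iv_vac h hK hK' v) k N

end fam

namespace Cht
variable {O O1 O2 : Set E6} {a : E6 → E6} (h : Cht O a) (s1 : O1 ⊆ O) (s2 : O2 ⊆ a '' O1)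
include h s1 s2

/-- One chart. -/
theorem sq : Sq (on O2) (on O1) (fun p => a p.2) fun p => invFunOn a O p.2 :=
  sq_iv (O := fun _ => O) (a := fun p => a p.2) (.of_forall fun _ => h)
    (.of_forall fun _ => s1) (.of_forall fun _ => s2)

theorem fv_pb (u : Sm (on O1)) {y : E6} (hy : y ∈ O2) :
    fv ((h.sq s1 s2).pb u) y = fv u (invFunOn a O y) := by
  rw [fv_in _ hy, fv_in _ (h.dif.mem' s1 (s2 hy)), ev_on ((h.sq s1 s2).rep_pb u) hy]

variable {g : Tw} (v : ∀ᶠ p in on O1, VacAt g (pj p.2)) (k : ℝ) {F0 : Fr (Sm (on O1))}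
  (N : F0.WN (geo _ k fun _ => g))
include v N

theorem wn : ((h.sq s1 s2).fr F0).WN (geo _ k fun _ => P354XE.pb (b4 O a) g) :=
  iv_wn (O := fun _ => O) (a := fun p => a p.2) (g := fun _ => g) (.of_forall fun _ => h)
    (.of_forall fun _ => s1) (.of_forall fun _ => s2)
    v k N

theorem ghp : ((h.sq s1 s2).fr F0).ghp (geo _ k fun _ => P354XE.pb (b4 O a) g) =
    (h.sq s1 s2).ghp (F0.ghp (geo _ k fun _ => g)) :=
  iv_ghp (O := fun _ => O) (a := fun p => a p.2) (g := fun _ => g) (.of_forall fun _ => h)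
    (.of_forall fun _ => s1)
    (.of_forall fun _ => s2) v k N

end Cht

end Vale.Agent.P354XO
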