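import Vale.Agent.P354XO.Box

/-!
Domains with the mean value inequality; the oscillation of the time, boxes in the image, and the
determinant.
-/

open scoped ContDiff
open Set Filter Topology Function Metric

namespace Vale.Agent.P354XO

open Vale.Agent.P354XG (E6)

variable {D : Set (ℝ × ℝ)} {a : E6 → E6} {l c e κ d : ℝ} {x y : E6}

theorem mv_conv {S : Set (ℝ × ℝ)} (hS : Convex ℝ S) (s : S ⊆ D) {g : ℝ × ℝ → E6}
    (h : ∀ x ∈ D, DifferentiableAt ℝ g x ∧ ‖fderiv ℝ g x‖ ≤ c) {p q : ℝ × ℝ} (hp : p ∈ S)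
    (hq : q ∈ S) : ‖g p - g q‖ ≤ c * ‖p - q‖ :=
  hS.norm_image_sub_le_of_norm_fderiv_le (fun x hx => (h x (s hx)).1) (fun x hx => (h x (s hx)).2)
    hq hp

theorem walk_convex (h : Convex ℝ D) : Walk 1 d D := fun _ hp _ hq _ _ _ hg => by
  rw [one_mul]; exact mv_conv h Subset.rfl hg hp hq

/-- Down or up to a level s, along the level, and back. -/
theorem walk_level (h : ∀ p ∈ D, ∀ q ∈ D, |p.2 - q.2| ≤ d → ∃ s, uIcc p.1 s ×ˢ {p.2} ⊆ D ∧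
    {s} ×ˢ uIcc p.2 q.2 ⊆ D ∧ uIcc s q.1 ×ˢ {q.2} ⊆ D ∧ |p.1 - s| + |s - q.1| ≤ κ * ‖p - q‖) :
    Walk (κ + 1) d D := fun p hp q hq hd g c hg => by
  obtain ⟨s, h1, h2, h3, h4⟩ := h p hp q hq hd
  have c0 : 0 ≤ c := (norm_nonneg _).trans (hg p hp).2
  have k1 := mv_conv ((convex_uIcc _ _).prod (convex_singleton _)) h1 hg (p := p) (q := (s, p.2))
    ⟨left_mem_uIcc, rfl⟩ ⟨right_mem_uIcc, rfl⟩
  have k2 := mv_conv ((convex_singleton _).prod (convex_uIcc _ _)) h2 hg (p := (s, p.2))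
    (q := (s, q.2)) ⟨rfl, left_mem_uIcc⟩ ⟨rfl, right_mem_uIcc⟩
  have k3 := mv_conv ((convex_uIcc _ _).prod (convex_singleton _)) h3 hg (p := (s, q.2)) (q := q)
    ⟨left_mem_uIcc, rfl⟩ ⟨right_mem_uIcc, rfl⟩
  rw [show ‖p - (s, p.2)‖ = |p.1 - s| by simp [Prod.norm_def]] at k1
  rw [show ‖((s, p.2) : ℝ × ℝ) - (s, q.2)‖ = |p.2 - q.2| by simp [Prod.norm_def]] at k2
  rw [show ‖(s, q.2) - q‖ = |s - q.1| by simp [Prod.norm_def]] at k3
  have k4 : |p.2 - q.2| ≤ ‖p - q‖ := norm_snd_le (p - q)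
  have := norm_sub_le_norm_sub_add_norm_sub (g p) (g (s, p.2)) (g q)
  have := norm_sub_le_norm_sub_add_norm_sub (g (s, p.2)) (g (s, q.2)) (g q)
  have := mul_le_mul_of_nonneg_left k4 c0
  have := mul_le_mul_of_nonneg_left h4 c0
  linarith

/-- Convex slices, and D is closed under going down to the time of another point. -/
theorem walk_star (h1 : ∀ p ∈ D, ∀ q ∈ D, ∀ s ∈ Icc q.1 p.1, (s, p.2) ∈ D)
    (h2 : ∀ t r r', (t, r) ∈ D → (t, r') ∈ D → ∀ s ∈ uIcc r r', (t, s) ∈ D) : Walk 2 d D := by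
  rw [← one_add_one_eq_two]
  refine walk_level fun p hp q hq _ => ?_
  have k : |p.1 - q.1| ≤ 1 * ‖p - q‖ := by rw [one_mul]; exact norm_fst_le (p - q)
  rcases le_total q.1 p.1 with h | h
  · refine ⟨q.1, ?_, ?_, ?_, by simpa using k⟩
    · rintro ⟨s, _⟩ ⟨m, rfl⟩
      exact h1 p hp q hq s (by rwa [uIcc_of_ge h] at m)
    · rintro ⟨_, s⟩ ⟨rfl, m⟩
      exact h2 _ _ _ (h1 p hp q hq _ ⟨le_rfl, h⟩) hq s m
    · simpa using hq
  · refine ⟨p.1, by simpa using hp, ?_, ?_, by simpa using k⟩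
    · rintro ⟨_, s⟩ ⟨rfl, m⟩
      exact h2 _ _ _ hp (h1 q hq p hp _ ⟨le_rfl, h⟩) s m
    · rintro ⟨s, _⟩ ⟨m, rfl⟩
      exact h1 q hq p hp s (by rwa [uIcc_of_le h] at m)

/-- The region between two Lipschitz graphs. -/
theorem walk_lip {I : Set ℝ} (hI : I.OrdConnected) {f g : ℝ → ℝ} {L : ℝ} (L0 : 0 ≤ L)
    (hf : ∀ r ∈ I, ∀ s ∈ I, f r - f s ≤ L * |r - s|)
    (hg : ∀ r ∈ I, ∀ s ∈ I, g r - g s ≤ L * |r - s|) (gap : ∀ r ∈ I, g r + 2 * (L + 1) * d ≤ f r) :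
    Walk (2 * L + 4) d {p | p.2 ∈ I ∧ g p.2 < p.1 ∧ p.1 < f p.2} := by
  rw [show 2 * L + 4 = 2 * L + 3 + 1 by ring]
  refine walk_level fun p hp q hq hd => ?_
  obtain ⟨u, hu⟩ : ∃ u, u = |p.2 - q.2| := ⟨_, rfl⟩
  have u0 : 0 ≤ u := hu ▸ abs_nonneg _
  have u1 : u ≤ ‖p - q‖ := hu ▸ norm_snd_le (p - q)
  have u2 : |p.1 - q.1| ≤ ‖p - q‖ := norm_fst_le (p - q)
  have u3 := mul_le_mul_of_nonneg_left (hu ▸ hd : u ≤ d) (by linarith : 0 ≤ L + 1)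
  have u4 := mul_nonneg L0 u0
  have g1 := gap _ hp.1
  obtain ⟨s, s1, s2, s3⟩ : ∃ s, |p.1 - s| ≤ (L + 1) * u ∧ (g p.2 + L * u < s ∨ u = 0 ∧ s = p.1) ∧
      (s < f p.2 - L * u ∨ u = 0 ∧ s = p.1) := by
    rcases u0.eq_or_lt with k | k
    · exact ⟨p.1, by simp [← k], Or.inr ⟨k.symm, rfl⟩, Or.inr ⟨k.symm, rfl⟩⟩
    have := hp.2.1
    have := hp.2.2
    refine ⟨max (g p.2 + (L + 1) * u) (min p.1 (f p.2 - (L + 1) * u)), ?_, Or.inl ?_, Or.inl ?_⟩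
    · refine abs_le.2 ⟨?_, ?_⟩
      · have := max_le (by linarith : g p.2 + (L + 1) * u ≤ p.1 + (L + 1) * u)
          ((min_le_left p.1 (f p.2 - (L + 1) * u)).trans (by linarith))
        linarith
      · have := (le_min (by linarith : p.1 - (L + 1) * u ≤ p.1)
          (by linarith : p.1 - (L + 1) * u ≤ f p.2 - (L + 1) * u)).trans
          (le_max_right (g p.2 + (L + 1) * u) _)
        linarith
    · exact lt_max_of_lt_left (by linarith)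
    · exact max_lt (by linarith) (min_lt_of_right_lt (by linarith))
  have k : ∀ r ∈ uIcc p.2 q.2, r ∈ I ∧ g r < s ∧ s < f r := fun r m => by
    have i := hI.uIcc_subset hp.1 hq.1 m
    have b : |r - p.2| ≤ u := by rw [hu, abs_sub_comm p.2]; exact abs_sub_left_of_mem_uIcc m
    have b1 := (hg r i _ hp.1).trans (mul_le_mul_of_nonneg_left b L0)
    rw [abs_sub_comm] at b
    have b2 := (hf _ hp.1 r i).trans (mul_le_mul_of_nonneg_left b L0)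
    refine ⟨i, ?_, ?_⟩
    · rcases s2 with k | ⟨k, rfl⟩
      · linarith
      · rw [k] at b1; linarith [hp.2.1]
    · rcases s3 with k | ⟨k, rfl⟩
      · linarith
      · rw [k] at b2; linarith [hp.2.2]
  refine ⟨s, ?_, ?_, ?_, ?_⟩
  · rintro ⟨t, _⟩ ⟨m, rfl⟩
    exact ⟨hp.1, ordConnected_Ioo.uIcc_subset hp.2 (k _ left_mem_uIcc).2 m⟩
  · rintro ⟨_, r⟩ ⟨rfl, m⟩
    exact k r m
  · rintro ⟨t, _⟩ ⟨m, rfl⟩
    exact ⟨hq.1, ordConnected_Ioo.uIcc_subset (k _ right_mem_uIcc).2 hq.2 m⟩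
  · have := abs_sub_le s p.1 q.1
    rw [abs_sub_comm s p.1] at this
    nlinarith

/-- Paths which are monotone in both coordinates. -/
theorem walk_path (h : ∀ p ∈ D, ∀ q ∈ D, |p.2 - q.2| ≤ d → ∃ (γ γ' : ℝ → ℝ × ℝ) (σ τ : ℝ),
    γ 0 = q ∧ γ 1 = p ∧ |σ| ≤ 1 ∧ |τ| ≤ 1 ∧ ∀ s ∈ Icc (0 : ℝ) 1, γ s ∈ D ∧ HasDerivAt γ (γ' s) s ∧
      |(γ' s).1| ≤ σ * (γ' s).1 ∧ |(γ' s).2| ≤ τ * (γ' s).2) : Walk 2 d D := by
  intro p hp q hq hd g c hg
  obtain ⟨γ, γ', σ, τ, rfl, rfl, h1, h2, h3⟩ := h p hp q hq hd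
  have c0 : 0 ≤ c := (norm_nonneg _).trans (hg _ hp).2
  have d1 : ∀ s ∈ Icc (0 : ℝ) 1, HasDerivAt (fun s => g (γ s) - g (γ 0))
      (fderiv ℝ g (γ s) (γ' s)) s := fun s m =>
    ((hg _ (h3 s m).1).1.hasFDerivAt.comp_hasDerivAt s (h3 s m).2.1).sub_const _
  have d2 : ∀ s ∈ Icc (0 : ℝ) 1, HasDerivAt (fun s => c * (σ * ((γ s).1 - (γ 0).1) +
      τ * ((γ s).2 - (γ 0).2))) (c * (σ * (γ' s).1 + τ * (γ' s).2)) s := fun s m =>
    (((((hasFDerivAt_fst.comp_hasDerivAt s (h3 s m).2.1).sub_const _).const_mul σ).add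
      (((hasFDerivAt_snd.comp_hasDerivAt s (h3 s m).2.1).sub_const _).const_mul τ)).const_mul c :)
  have := image_norm_le_of_norm_deriv_right_le_deriv_boundary'
    (fun s m => (d1 s m).continuousAt.continuousWithinAt)
    (fun s m => (d1 s (Ico_subset_Icc_self m)).hasDerivWithinAt) (by simp)
    (fun s m => (d2 s m).continuousAt.continuousWithinAt)
    (fun s m => (d2 s (Ico_subset_Icc_self m)).hasDerivWithinAt) (fun s m => by
      obtain ⟨k1, -, k2, k3⟩ := h3 s (Ico_subset_Icc_self m)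
      refine ((fderiv ℝ g (γ s)).le_of_opNorm_le (hg _ k1).2 _).trans
        (mul_le_mul_of_nonneg_left (max_le ?_ ?_) c0)
      · rw [Real.norm_eq_abs]; linarith [abs_nonneg (γ' s).2]
      · rw [Real.norm_eq_abs]; linarith [abs_nonneg (γ' s).1]) (right_mem_Icc.2 zero_le_one)
  have b : ∀ σ w : ℝ, |σ| ≤ 1 → σ * w ≤ |w| := fun σ w k => (le_abs_self _).trans (by
    rw [abs_mul]; exact mul_le_of_le_one_left (abs_nonneg _) k)
  have b1 := (b σ _ h1).trans (norm_fst_le (γ 1 - γ 0))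
  have b2 := (b τ _ h2).trans (norm_snd_le (γ 1 - γ 0))
  refine this.trans ?_
  rw [mul_comm 2, mul_assoc]
  exact mul_le_mul_of_nonneg_left (by
    simp only [Prod.fst_sub, Prod.snd_sub] at b1 b2; linarith) c0

namespace Box
variable (h : Box D a l c e)
include h

/-- The mean value inequality for the time, on the unit sphere. -/
theorem mvt1 {S : Set E6} (hS : Convex ℝ S) (s : ∀ x ∈ S, (x.1, x.2.1) ∈ D ∧ ‖x.2.2‖ = 1)
    (hx : x ∈ S) (hy : y ∈ S) : |(a y).1 - (a x).1 - l * (y.1 - x.1)| ≤ c * ‖y - x‖ := by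
  have := h.mvt hS le_rfl (fun x hx => ⟨(s x hx).1, by simp [(s x hx).2], (s x hx).2.le⟩) hx hy
  rw [one_mul] at this
  exact (norm_fst_le (a y - a x - dg l (y - x))).trans this

theorem t_unit (hx : x ∈ Om D) : (a (sc (nz x)⁻¹ x)).1 = (a x).1 :=
  h.t_sc hx (inv_ne_zero (nz_ne hx.2))

/-- The new time along a line of the old time. -/
theorem t_line {t t' r : ℝ} {ξ : ℂ × ℂ} (n : ξ ≠ 0) (s : uIcc t t' ×ˢ {r} ⊆ D) :
    |(a (t', r, ξ)).1 - (a (t, r, ξ)).1 - l * (t' - t)| ≤ c * |t' - t| := by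
  have := h.mvt1 (S := uIcc t t' ×ˢ {r} ×ˢ {(nz (t, r, ξ))⁻¹ • ξ})
    ((convex_uIcc _ _).prod ((convex_singleton _).prod (convex_singleton _)))
    (fun x hx => ⟨s ⟨hx.1, hx.2.1⟩, hx.2.2 ▸ norm_unit (x := (t, r, ξ)) n⟩)
    (x := sc (nz (t, r, ξ))⁻¹ (t, r, ξ)) (y := sc (nz (t', r, ξ))⁻¹ (t', r, ξ))
    ⟨left_mem_uIcc, rfl, rfl⟩ ⟨right_mem_uIcc, rfl, rfl⟩
  rw [h.t_unit (x := (t, r, ξ)) ⟨s ⟨left_mem_uIcc, rfl⟩, n⟩,
    h.t_unit (x := (t', r, ξ)) ⟨s ⟨right_mem_uIcc, rfl⟩, n⟩] at this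
  simpa [norm_e6, sc_ap, nz] using this

theorem t_sphere {t r : ℝ} {ξ : ℂ × ℂ} (n : ξ ≠ 0) (s : (t, r) ∈ D) :
    |(a (t, r, ξ)).1 - (a (t, r, 1, 1)).1| ≤ 2 * c := by
  have b : ∀ w : ℂ, ‖w‖ ≤ 1 → c * ‖w - 1‖ ≤ 2 * c := fun w k => by
    have := norm_sub_le w 1
    rw [norm_one] at this
    nlinarith [h.c0]
  rcases le_total ‖ξ.2‖ ‖ξ.1‖ with k | k
  · have n1 : ξ.1 ≠ 0 := fun e => n (Prod.ext e (by simpa [e] using k))
    have w : ‖ξ.1⁻¹ * ξ.2‖ ≤ 1 := by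
      rw [norm_mul, norm_inv]; exact inv_mul_le_one_of_le₀ k (norm_nonneg _)
    have := h.mvt1 (S := {t} ×ˢ {r} ×ˢ {1} ×ˢ closedBall 0 1) ((convex_singleton _).prod
      ((convex_singleton _).prod ((convex_singleton _).prod (convex_closedBall _ _))))
      (fun x hx => ⟨by rwa [hx.1, hx.2.1], by
        rw [Prod.norm_def, hx.2.2.1, norm_one, max_eq_left (mem_closedBall_zero_iff.1 hx.2.2.2)]⟩)
      (x := (t, r, 1, 1)) (y := sc ξ.1⁻¹ (t, r, ξ)) ⟨rfl, rfl, rfl, by simp⟩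
      ⟨rfl, rfl, inv_mul_cancel₀ n1, mem_closedBall_zero_iff.2 w⟩
    rw [h.t_sc ⟨s, n⟩ (inv_ne_zero n1)] at this
    refine le_trans ?_ (b _ w)
    simpa [norm_e6, sc_ap, Prod.norm_def, n1] using this
  · have n1 : ξ.2 ≠ 0 := fun e => n (Prod.ext (by simpa [e] using k) e)
    have w : ‖ξ.2⁻¹ * ξ.1‖ ≤ 1 := by
      rw [norm_mul, norm_inv]; exact inv_mul_le_one_of_le₀ k (norm_nonneg _)
    have := h.mvt1 (S := {t} ×ˢ {r} ×ˢ closedBall 0 1 ×ˢ {1}) ((convex_singleton _).prod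
      ((convex_singleton _).prod ((convex_closedBall _ _).prod (convex_singleton _))))
      (fun x hx => ⟨by rwa [hx.1, hx.2.1], by
        rw [Prod.norm_def, hx.2.2.2, norm_one, max_eq_right (mem_closedBall_zero_iff.1 hx.2.2.1)]⟩)
      (x := (t, r, 1, 1)) (y := sc ξ.2⁻¹ (t, r, ξ)) ⟨rfl, rfl, by simp, rfl⟩
      ⟨rfl, rfl, mem_closedBall_zero_iff.2 w, inv_mul_cancel₀ n1⟩
    rw [h.t_sc ⟨s, n⟩ (inv_ne_zero n1)] at this
    refine le_trans ?_ (b _ w)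
    simpa [norm_e6, sc_ap, Prod.norm_def, n1] using this

/-- The oscillation of the new time on a slice of the old time. -/
theorem osc {t r r' : ℝ} {ξ ξ' : ℂ × ℂ} (n : ξ ≠ 0) (n' : ξ' ≠ 0) (s : {t} ×ˢ uIcc r r' ⊆ D) :
    |(a (t, r', ξ')).1 - (a (t, r, ξ)).1| ≤ c * (|r' - r| + 4) := by
  have k1 := abs_le.1 (h.t_sphere n (s ⟨rfl, left_mem_uIcc⟩))
  have k2 := abs_le.1 (h.t_sphere n' (s ⟨rfl, right_mem_uIcc⟩))
  have k3 := h.mvt1 (S := {t} ×ˢ uIcc r r' ×ˢ {(1, 1)})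
    ((convex_singleton _).prod ((convex_uIcc _ _).prod (convex_singleton _)))
    (fun x hx => ⟨s ⟨hx.1, hx.2.1⟩, by rw [hx.2.2]; simp⟩) (x := (t, r, 1, 1)) (y := (t, r', 1, 1))
    ⟨rfl, left_mem_uIcc, rfl⟩ ⟨rfl, right_mem_uIcc, rfl⟩
  have k4 : |(a (t, r', 1, 1)).1 - (a (t, r, 1, 1)).1| ≤ c * |r' - r| := by
    simpa [norm_e6] using k3
  have := abs_le.1 k4
  exact abs_le.2 ⟨by linarith, by linarith⟩

/-- A box in the image, with times read on the curve (t, r0, ξ0). -/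
theorem hit_box {t1 t2 r1 r2 r0 : ℝ} {ξ0 : ℂ × ℂ} (n0 : ξ0 ≠ 0) (ht : t1 ≤ t2)
    (s : Icc (t1 - 4 * e) (t2 + 4 * e) ×ˢ Icc (r1 - 4 * e) (r2 + 4 * e) ⊆ D) (m0 : r0 ∈ Icc r1 r2)
    (n : y.2.2 ≠ 0) (m : y.2.1 ∈ Icc r1 r2) (h1 : (a (t1, r0, ξ0)).1 + c * (r2 - r1 + 4) ≤ y.1)
    (h2 : y.1 ≤ (a (t2, r0, ξ0)).1 - c * (r2 - r1 + 4)) :
    ∃ x ∈ Om D, a x = y ∧ x.1 ∈ Icc (t1 - 4 * e) (t2 + 4 * e) := by
  have e0 := h.e0
  have k : ∀ t ∈ Icc t1 t2, |(a (t, y.2)).1 - (a (t, r0, ξ0)).1| ≤ c * (r2 - r1 + 4) :=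
    fun t mt => (h.osc n0 n fun p hp => by
      have := uIcc_subset_Icc m0 m hp.2
      exact s ⟨hp.1 ▸ ⟨by linarith [mt.1], by linarith [mt.2]⟩, by linarith [this.1],
        by linarith [this.2]⟩).trans (mul_le_mul_of_nonneg_left (by
      linarith [(abs_le.2 ⟨by linarith [m.1, m0.2], by linarith [m.2, m0.1]⟩ :
        |y.2.1 - r0| ≤ r2 - r1)]) h.c0)
  exact h.hit1 n ht (Subset.trans (prod_mono_right (Icc_subset_Icc (by linarith [m.1])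
    (by linarith [m.2]))) s) (by linarith [(abs_le.1 (k t1 ⟨le_rfl, ht⟩)).2])
    (by linarith [(abs_le.1 (k t2 ⟨ht, le_rfl⟩)).1])

theorem det_unit (hx : x ∈ Om D) : (fderiv ℝ a x).det = (fderiv ℝ a (sc (nz x)⁻¹ x)).det := by
  have hz := nz_ne hx.2
  have e1 : (fderiv ℝ a x : E6 →ₗ[ℝ] E6) = (sc (nz x) : E6 →ₗ[ℝ] E6) ∘ₗ
      (fderiv ℝ a (sc (nz x)⁻¹ x) : E6 →ₗ[ℝ] E6) ∘ₗ (sc (nz x)⁻¹ : E6 →ₗ[ℝ] E6) :=
    LinearMap.ext fun w => by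
      have := h.fd_sc (om_sc hx (inv_ne_zero hz)) hz w
      rwa [sc_inv hz] at this
  have e2 : (sc (nz x) : E6 →ₗ[ℝ] E6) ∘ₗ (sc (nz x)⁻¹ : E6 →ₗ[ℝ] E6) = .id :=
    LinearMap.ext (sc_inv hz)
  have e3 := congrArg LinearMap.det e2
  rw [LinearMap.det_comp, LinearMap.det_id] at e3
  rw [ContinuousLinearMap.det, e1, LinearMap.det_comp, LinearMap.det_comp, mul_left_comm, e3,
    mul_one]

end Box

/-- The determinant of the chart is bounded above and below by universal constants. -/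
theorem box_det : ∃ C > 0, ∀ D a l c e, Box D a l c e → l ≤ 2 → ∀ x ∈ Om D,
    C⁻¹ ≤ |(fderiv ℝ a x).det| ∧ |(fderiv ℝ a x).det| ≤ C := by
  have k : Continuous fun p : ℝ × (E6 →L[ℝ] E6) => dg 0 + p.1 • (dg 1 - dg 0) + p.2 := by fun_prop
  have e : ∀ l, dg 0 + l • (dg 1 - dg 0) = dg l := fun l =>
    ContinuousLinearMap.ext fun w => Prod.ext (by simp [dg_ap]) (by simp [dg_ap])
  obtain ⟨C, C0, hC⟩ := det_bd (((isCompact_Icc (a := 1 / 2) (b := 2)).prod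
    (isCompact_closedBall 0 (1 / 8))).image k) (by
      rintro _ ⟨p, hp, rfl⟩
      refine inj_of_low (c := 1 / 4) (by norm_num) fun w => ?_
      have h1 := low_dg hp.1.1 w
      have h2 := p.2.le_of_opNorm_le (mem_closedBall_zero_iff.1 hp.2) w
      have h3 := norm_sub_le (dg p.1 w + p.2 w) (p.2 w)
      rw [add_sub_cancel_right] at h3
      simp only [e, add_apply]
      linarith [norm_nonneg w])
  refine ⟨C, C0, fun D a l c _ h hl x hx => ?_⟩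
  rw [h.det_unit hx]
  exact hC _ ⟨(l, _ - dg l), ⟨⟨h.hl, hl⟩, mem_closedBall_zero_iff.2 ((h.d _
    (om_sc hx (inv_ne_zero (nz_ne hx.2))) (norm_unit hx.2)).trans h.hc)⟩, by
      simp only [e, add_sub_cancel]⟩

end Vale.Agent.P354XO
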