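import Vale.Agent.P354XO.Fam
import Vale.Agent.P354MG.Gp

/-!
The inverse keeps the graded classes Dom.
-/

open scoped ContDiff
open Set Filter Topology Module

namespace Vale.Agent.P354XO

open Vale.Agent.P354XG hiding Mp rep_sum Dom Dom0 Bd bdSub domI Keeps Low dom0_mk dom0_zero dom0_cst
  dom_of dom_zero dom_cst bd_alg dom_sum dom0_sum keeps_pd keeps_zero keeps_sum bd_closure dom_pb_aff
  bd_fn bd_par Conn gron gron0 dom_of_sys dom_sub_ev0
open Vale.Agent.P354MG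
open Vale.Agent.P354XD (hp zc d1 d2 v1 v2 hp_d)

variable {J E : Type} [NormedAddCommGroup E] [NormedSpace ℝ E] {F : Filter J} {K K' : J → Set E}
  {a b : J × E → E} {μ : ℕ → J → ℝ} {n : ℕ}

theorem Sec.cmp_of {G G2 : Filter (J × E)} [Loc G] (h : Sec G2 G a b) {ψ : E →L[ℝ] ℂ} {u : Sm G}
    (e : rep u =ᶠ[G] fun p => ψ (a p)) : h.cmp ψ = u := ext_rep ((rep_mk _ _).trans e.symm)

/-- The pull backs by a and by b are inverse. -/
theorem Sec.pb_pb {G G2 : Filter (J × E)} [Loc G] [Loc G2] (h : Sec G2 G a b) (m : Mp G G2 a)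
    (u : Sm G2) : h.pb (m.pb u) = u :=
  ext_rep ((h.rep_pb _).trans (((h.tend.eventually (m.rep_pb u)).and h.inv).mono fun p e =>
    e.1.trans (congrArg (fun y => rep u (p.1, y)) e.2)))

namespace Sec
variable (h : Sec (nb F K') (nb F K) a b) (hm : ∀ᶠ j in F, ∀ x ∈ K' j, b (j, x) ∈ K j)
  [FiniteDimensional ℝ E]
include hm

/-- The truncated form: no loss of derivatives. -/
theorem dn_co (hb : ∀ k l, DN n (w1 J) (pd (finBasis ℝ E l) (h.cmp (crd k)))) (lo : LowD F K a)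
    (ψ : E →L[ℝ] ℂ) (v : E) : DN n (w1 J) (pd v (h.pb (lin ψ))) := by
  induction n generalizing ψ v with
  | zero => exact dn_zero_iff.2 (h.dom0_co hm lo ψ v)
  | succ n ih =>
    have ih := ih fun k l => (hb k l).le (Nat.le_succ n)
    refine dn_succ (h.dom0_co hm lo ψ v) fun w => ?_
    rw [h.pd_pd]
    refine (dn_sum wgt_one _ fun k _ => dn_sum wgt_one _ fun l _ => DN.bmul wgt_one
      (DN.bmul wgt_one (ih _ _) (ih _ _)) ?_).neg wgt_one
    rw [h.chain]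
    exact dn_sum wgt_one _ fun m _ => DN.bmul wgt_one (ih _ _) (dn_pb (h.mp hm) (finBasis ℝ E)
      (finBasis ℝ E) wgt_one (fun i l => h.mp_co hm _ ▸ ih _ _) ((hb k l).pd _))

theorem dn (hb : ∀ k l, DN n (w1 J) (pd (finBasis ℝ E l) (h.cmp (crd k)))) (lo : LowD F K a)
    (hμ : Wgt μ) {u : Sm (nb F K)} (hu : DN n μ u) : DN n μ (h.pb u) :=
  dn_pb (h.mp hm) (finBasis ℝ E) (finBasis ℝ E) hμ
    (fun _ _ => h.mp_co hm _ ▸ h.dn_co hm hb lo _ _) hu

end Sec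

variable [Gr F]

variable (F K a) in
/-- The lower bound of the derivative, with a constant which may depend on the parameter. -/
def LowG : Prop := ∀ᶠ k in atTop, ∀ θ, LowD (ph F k θ) K a

theorem LowD.g (h : LowD F K a) : LowG F K a := by
  obtain ⟨c, hc, h⟩ := h
  exact (evk h).mono fun k h θ => ⟨c, hc, h θ⟩

namespace Sec
variable (h : Sec (nb F K') (nb F K) a b) (hm : ∀ᶠ j in F, ∀ x ∈ K' j, b (j, x) ∈ K j)
  [FiniteDimensional ℝ E]

theorem gtame (hb : ∀ ψ v, Bd (pd v (h.cmp ψ))) (lo : LowG F K a) : Tame (h.mp hm) := by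
  intro ψ v
  rw [Bd, dom_iff]
  filter_upwards [mp_lf (h.mp hm), evg h.sa, evg h.inv, ev_gr2.2 lo, lf_pd v ((h.mp hm).co ψ),
    lf_co (h.mp hm) ψ, eventually_all.2 fun k => eventually_all.2 fun l =>
      (dom_iff.1 (hb (crd k) (finBasis ℝ E l))).and ((lf_pd (finBasis ℝ E l) (h.cmp (crd k))).and
        (rep_lf' (a := h.cmp (crd k)) (rep_mk _ _)))] with q h1 h2 h3 h4 h5 h6 h7 θ
  have s := sec_of (h1 θ) (h2 θ) (h3 θ)
  rw [h5, h6 θ (s.mp (h1 θ).maps), s.mp_co (h1 θ).maps]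
  refine s.dn_co (h1 θ).maps (fun k l => ?_) (h4 θ) ψ v
  rw [s.cmp_of ((h7 k l).2.2 θ), ← (h7 k l).2.1 θ]
  exact (h7 k l).1 θ

include hm in
/-- The pull back by the inverse keeps the graded classes. -/
theorem gdom (hb : ∀ ψ v, Bd (pd v (h.cmp ψ))) (lo : LowG F K a) (hμ : Wgt μ) {u : Sm (nb F K)}
    (hu : Dom μ u) : Dom μ (h.pb u) := hu.pb (h.mp hm) (h.gtame hm hb lo) hμ

include hm in
theorem gkeeps (hb : ∀ ψ v, Bd (pd v (h.cmp ψ))) (lo : LowG F K a) {D : Der (Sm (nb F K))}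
    (hD : ∀ ψ, Bd (D (h.cmp ψ))) : Keeps (h.push D) :=
  keeps_sum _ fun _ _ => (keeps_pd _).smul (h.gdom hm hb lo wgt_one (hD _))

end Sec

section six
variable {K K' : J → Set E6} {a b : J × E6 → E6} (h : Sec (nb F K') (nb F K) a b)

omit [Gr F] in
theorem Sec.cmp_zc (ψ : E6 →L[ℝ] ℂ) :
    h.cmp ψ = ∑ i, algebraMap ℂ _ (d1 i * ψ (v1 i) + d2 i * ψ (v2 i)) * h.cmp (zc i) :=
  (P354XD.rs_mk _).ext (P354XD.Rs.sum _ fun _ => (P354XD.rs_alg _).mul (P354XD.rs_mk _))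
    (.of_forall fun p => (sum_zc ψ (a p)).trans (Finset.sum_congr rfl fun _ _ => mul_comm _ _))

/-- It suffices to look at the six coordinates. -/
theorem Sec.bd_six {D : Der (Sm (nb F K))} (e : ∀ i, Bd (D (h.cmp (zc i)))) (ψ : E6 →L[ℝ] ℂ) :
    Bd (D (h.cmp ψ)) := by
  rw [h.cmp_zc, map_sum]
  refine dom_sum wgt_one _ fun i _ => ?_
  rw [D_mul, D_alg, mul_zero, add_zero]
  exact Dom.bmul wgt_one (bd_alg _) (e i)

theorem keeps_d (i : Fin 6) : Keeps ((hp (nb F K)).d i) :=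
  ((keeps_pd _).smul (bd_alg _)).add ((keeps_pd _).smul (bd_alg _))

/-- The push forward agrees with Y up to Dom μ if the six components do. -/
theorem Sec.gpush_sub (hμ : Wgt μ) {X : Der (Sm (nb F K))} {Y : Der (Sm (nb F K'))} (hX : VF X)
    (hY : VF Y) (e : ∀ i, Dom μ (h.pb (X (h.cmp (zc i))) - Y ((hp _).z i))) {u : Sm (nb F K')}
    (hu : ∀ i, Bd ((hp _).d i u)) : Dom μ (h.push X u - Y u) := by
  have e1 : ∀ {Z : Der (Sm (nb F K'))}, VF Z → Z u = ∑ i, Z ((hp _).z i) * (hp _).d i u :=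
    fun hZ => (DFunLike.congr_fun hZ.eq_z u).trans
      ((⟨(hp _).z, (hp _).d⟩ : Co _ (Fin 6)).vf_ap _ _)
  rw [e1 hY, e1 (h.vf X), ← Finset.sum_sub_distrib]
  refine dom_sum hμ _ fun i _ => ?_
  rw [← sub_mul, mul_comm, z_lin, h.push_lin hX]
  exact Dom.bmul hμ (hu i) (e i)

end six

end Vale.Agent.P354XO
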