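import Vale.Agent.P354XO.Desc
import Vale.Agent.P354XD.Rot
import Vale.Agent.P354XR.Uni
import Vale.Agent.P354XE.Defs

/-!
Naturality: the push forward of the GHP calculus of a frame is the GHP calculus of the pushed frame
for the pulled back metric.
-/

open scoped ContDiff
open Set Filter Topology Function

namespace Vale.Agent.P354XO

open Vale.Agent.P354n (R4)
open Vale.Agent.P354RC (bs cv sum_bs)
open Vale.Agent.P354XG hiding Mp rep_sum
open Vale.Agent.P354XG.Geo (dv)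
open Vale.Agent.P354XD
open Vale.Agent.P354XR (KC ghp_uniq)
open Vale.Agent.P354XE (Tw)

variable {J : Type} {G G2 : Filter (J × E6)} [Loc G] [Loc G2]

theorem VF.ex_V (o : Off G) {X : Der (Sm G)} (h : VF X) :
    ∃ e1 e2 e3 e4 e5 e6, X = (hp G).kc.V e1 e2 e3 e4 e5 e6 := by
  obtain ⟨-, -, -, -, -, -, -, -, -, -, -, -, p, q, u, w⟩ := (hp_is o).tab
  have n := (hp_is o).hN
  rw [Hp.N] at n
  generalize hK : hp G = K at p q u w n
  refine ⟨X (K.z 0), X (K.z 1), K.Ni * (K.z 2 * X (K.z 3) - K.z 3 * X (K.z 2)),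
    K.Ni * (K.z 4 * X (K.z 5) - K.z 5 * X (K.z 4)), K.Ni * (K.z 4 * X (K.z 2) + K.z 5 * X (K.z 3)),
    K.Ni * (K.z 2 * X (K.z 4) + K.z 3 * X (K.z 5)), h.ext_z (hK ▸ vf_V ..) fun i => ?_⟩
  have d := fun i j => hK ▸ d_z (G := G) i j
  rw [hK, KC.V_ap]
  simp only [Hp.kc, p, q, u, w, d]
  fin_cases i <;> simp
  · linear_combination -X (K.z 2) * n
  · linear_combination -X (K.z 3) * n
  · linear_combination -X (K.z 4) * n
  · linear_combination -X (K.z 5) * n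

/-- A vector field is the lift of its projection plus a vertical field. -/
theorem VF.split (o : Off G) {X : Der (Sm G)} (h : VF X) : ∃ u v, ∀ f, X f =
    ∑ a, (hp G).prj X a * (hp G).L a f + u * (hp G).H f + v * (hp G).B f := by
  obtain ⟨e1, e2, e3, e4, e5, e6, rfl⟩ := h.ex_V o
  exact ⟨e5, e6, fun f => ((hp_is o).act_prj 0 0 e1 e2 e3 e4 e5 e6 f).symm.trans
    (Geo.act_apply _ _ _)⟩

/-- The lift of a field of the base. -/
noncomputable def hz (X : Vec (Sm G)) : Der (Sm G) := ∑ a, X a • (hp G).L a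

theorem hz_ap (X : Vec (Sm G)) (f : Sm G) : hz X f = ∑ a, X a * (hp G).L a f := by
  simp [hz, Fin.sum_univ_four]

theorem vf_hz (X : Vec (Sm G)) : VF (hz X) := Co.VF.sum _ fun a _ => (vf_L a).smul _

theorem null_ind {A : Type*} [CommRing A] [Algebra ℂ A] {S : Geo A} {F : Fr A} (h : S.Is)
    (N : F.Nl S) (c1 c2 c3 c4 : A) (e : ∀ a, c1 * F.l a + c2 * F.n a + c3 * F.m a + c4 * F.mb a = 0) :
    c1 = 0 ∧ c2 = 0 ∧ c3 = 0 ∧ c4 = 0 := by
  have N : Geo.Null S F.l F.n F.m F.mb := N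
  have k : ∀ Z, c1 * S.dot F.l Z + c2 * S.dot F.n Z + c3 * S.dot F.m Z + c4 * S.dot F.mb Z = 0 :=
    fun Z => by
      have : c1 • F.l + c2 • F.n + c3 • F.m + c4 • F.mb = 0 := funext e
      rw [← S.dot_zero_left Z, ← this]
      simp only [Geo.dot_add_left, Geo.dot_smul_left]
  have k1 := k F.l
  have k2 := k F.n
  have k3 := k F.m
  have k4 := k F.mb
  simp only [N.ll, N.nn, N.mm, N.ln, N.lm, N.nm, N.mmb, N.mbmb h, N.lmb h, N.nmb h, N.nl h,
    N.ml h, N.mn h, N.mbl h, N.mbn h, N.mbm h] at k1 k2 k3 k4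
  exact ⟨by linear_combination -k2, by linear_combination -k1, by linear_combination k4,
    by linear_combination k3⟩

theorem dot_alg {A : Type*} [CommRing A] {g g2 c : Fin 4 → Fin 4 → A}
    (e : ∀ a b, g2 a b = ∑ i, ∑ j, g i j * c i a * c j b) (X Y : Vec A) :
    ∑ a, ∑ b, g2 a b * X a * Y b = ∑ i, ∑ j, g i j * (∑ a, X a * c i a) * ∑ b, Y b * c j b := by
  simp only [e, Fin.sum_univ_four]
  ring

/-- An equivariant section. -/
structure Sq (G2 G : Filter (J × E6)) [Loc G2] [Loc G] (a b : J × E6 → E6) : Prop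
    extends Sec G2 G a b where
  o : Off G
  o2 : Off G2
  H : toSec.push (hp G).H = (hp G2).H
  B : toSec.push (hp G).B = (hp G2).B

namespace Sq
variable {a b : J × E6 → E6} (h : Sq G2 G a b)

/-- The push forward of a field of the base, and of a frame. -/
noncomputable def pv (X : Vec (Sm G)) : Vec (Sm G2) := (hp G2).prj (h.push (hz X))
noncomputable def fr (F : Fr (Sm G)) : Fr (Sm G2) := ⟨h.pv F.l, h.pv F.n, h.pv F.m, h.pv F.mb⟩

/-- The derivative of the map of the base. -/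
noncomputable def jc (e c : Fin 4) : Sm G2 := (hp G2).L c (h.pb ((hp G).co e))

theorem H_pb (u : Sm G) : (hp G2).H (h.pb u) = h.pb ((hp G).H u) := by rw [h.map vf_H, h.H]
theorem B_pb (u : Sm G) : (hp G2).B (h.pb u) = h.pb ((hp G).B u) := by rw [h.map vf_B, h.B]

theorem pv_jc (X : Vec (Sm G)) (e : Fin 4) : ∑ c, h.pv X c * h.jc e c = h.pb (X e) := by
  obtain ⟨u, v, k⟩ := (h.vf (hz X)).split h.o2
  have := k (h.pb ((hp G).co e))
  rw [h.H_pb, h.B_pb, ((hp_is h.o).tco e).2.2.2.2.1, ((hp_is h.o).tco e).2.2.2.2.2, map_zero,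
    mul_zero, mul_zero, add_zero, add_zero, ← h.map (vf_hz X), hz_ap] at this
  simp only [(hp_is h.o).L_co, mul_ite, mul_one, mul_zero, Finset.sum_ite_eq', Finset.mem_univ,
    if_true] at this
  exact this.symm

theorem pv_neg (X : Vec (Sm G)) : h.pv (-X) = -h.pv X := by
  rw [pv, h.push_eq (h.vf (hz X)).neg fun ψ => by
    rw [Derivation.neg_apply, h.push_lin (vf_hz X), ← map_neg]
    simp only [hz_ap, Pi.neg_apply, neg_mul, Finset.sum_neg_distrib]]
  rfl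

theorem dv_pv {D : Der (Sm G)} {D2 : Der (Sm G2)} (hD : VF D) (e : h.push D = D2)
    (c : ∀ a f, D ((hp G).L a f) = (hp G).L a (D f)) (z : ∀ a, D2 ((hp G2).co a) = 0)
    (X : Vec (Sm G)) : dv D2 (h.pv X) = h.pv (dv D X) := funext fun d => by
  have := h.psh.push_comm hD (vf_hz X) (h.vf (hz (dv D X))) (fun f => by
    simp only [hz_ap, map_sum, D_mul, c, dv, Finset.sum_add_distrib, mul_comm])
    (h.map (vf_hz _)) ((hp G2).co d)
  have e' : P354XO.push _ _ _ D = D2 := e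
  rw [e', z, map_zero, zero_add] at this
  exact this

variable {g : Fin 4 → Fin 4 → Sm G} {Γ : Fin 4 → Fin 4 → Fin 4 → Sm G}
  {g2 : Fin 4 → Fin 4 → Sm G2} {Γ2 : Fin 4 → Fin 4 → Fin 4 → Sm G2}

theorem cv_pv (X : Vec (Sm G)) :
    ((hp G2).geo g2 Γ2).cv (h.pv X) = h.pv (((hp G).geo g Γ).cv X) := funext fun d => by
  have := h.cjs.push (D := hz X) (D' := hz (((hp G).geo g Γ).cv X)) (fun f => by
    simp only [hz_ap, map_sum, map_mul]
    exact Finset.sum_congr rfl fun a _ => congrArg (_ * ·) ((hp_is h.o).c_L a f)) ((hp G2).co d)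
  exact this.trans (congrArg _ ((hp_is h.o2).c_co d))

variable (e : ∀ c d, g2 c d = ∑ i, ∑ j, h.pb (g i j) * h.jc i c * h.jc j d)
include e

theorem dot_pv (X Y : Vec (Sm G)) :
    ((hp G2).geo g2 Γ2).dot (h.pv X) (h.pv Y) = h.pb (((hp G).geo g Γ).dot X Y) := by
  refine (dot_alg e _ _).trans ?_
  simp only [h.pv_jc, Geo.dot, map_sum, map_mul]
  rfl

theorem wn {F : Fr (Sm G)} (N : F.WN ((hp G).geo g Γ)) : (h.fr F).WN ((hp G2).geo g2 Γ2) := by
  have i := hp_is h.o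
  have i2 := hp_is h.o2
  have dH := h.dv_pv vf_H h.H i.HL fun a => (i2.tco a).2.2.2.2.1
  have dB := h.dv_pv vf_B h.B (fun a f => by
    have := congrArg (hp G).c (i.HL a ((hp G).c f))
    rwa [i.c_H, i.c_L, i.c_L, i.c_H, i.cc] at this) fun a => (i2.tco a).2.2.2.2.2
  refine ⟨⟨(h.cv_pv _).trans (congrArg _ N.c_l), (h.cv_pv _).trans (congrArg _ N.c_n),
    (h.cv_pv _).trans (congrArg _ N.c_m), ?_, ?_, ?_, ?_, ?_, ?_, ?_⟩,
    (dH _).trans (congrArg _ N.H_l), (dH _).trans ((congrArg _ N.H_n).trans (h.pv_neg _)),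
    (dH _).trans (congrArg _ N.H_m), (dB _).trans ((congrArg _ N.Hb_m).trans (h.pv_neg _))⟩
  · exact (h.dot_pv e _ _).trans (by rw [N.ll, map_zero])
  · exact (h.dot_pv e _ _).trans (by rw [N.nn, map_zero])
  · exact (h.dot_pv e _ _).trans (by rw [N.mm, map_zero])
  · exact (h.dot_pv e _ _).trans (by rw [N.ln, map_neg, map_one])
  · exact (h.dot_pv e _ _).trans (by rw [N.lm, map_zero])
  · exact (h.dot_pv e _ _).trans (by rw [N.nm, map_zero])
  · exact (h.dot_pv e _ _).trans (by rw [N.mmb, map_one])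

omit e in
theorem push_act (u : Op (Sm G)) (f : Sm G2) : h.push (((hp G).geo g Γ).act u) f =
    h.push (hz u.X) f + h.pb u.a * (hp G2).H f + h.pb u.b * (hp G2).B f := by
  rw [h.push_eq (((h.vf (hz u.X)).add (vf_H.smul (h.pb u.a))).add (vf_B.smul (h.pb u.b)))
    fun ψ => by
      rw [Geo.act_apply, map_add, map_add, map_mul, map_mul, ← h.pb_cmp]
      exact congrArg₂ (· + ·) (congrArg₂ (· + ·) ((congrArg _ (hz_ap _ _).symm).trans
        (h.map (vf_hz _) _)) (congrArg _ (h.H_pb _).symm)) (congrArg _ (h.B_pb _).symm)]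
  rfl

omit e in
theorem act_vert (u : Op (Sm G)) (w : Op (Sm G2)) (k : w.X = h.pv u.X) : ∃ s t, ∀ f,
    ((hp G2).geo g2 Γ2).act w f = h.push (((hp G).geo g Γ).act u) f + s * (hp G2).H f +
      t * (hp G2).B f := by
  obtain ⟨s, t, k1⟩ := (h.vf (hz u.X)).split h.o2
  refine ⟨w.a - s - h.pb u.a, w.b - t - h.pb u.b, fun f => ?_⟩
  rw [h.push_act, k1, Geo.act_apply, k]
  simp only [Hp.geo, pv]
  ring

/-- The GHP calculus of the pushed frame. -/
theorem ghp_fr {F : Fr (Sm G)} (i : ((hp G).geo g Γ).Is) (i2 : ((hp G2).geo g2 Γ2).Is)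
    (N : F.WN ((hp G).geo g Γ)) :
    (h.fr F).ghp ((hp G2).geo g2 Γ2) = h.ghp (F.ghp ((hp G).geo g Γ)) := by
  have N2 := h.wn (Γ2 := Γ2) e N
  have k := fun X => h.act_vert (g := g) (Γ := Γ) (g2 := g2) (Γ2 := Γ2)
    (Geo.hat ((hp G).geo g Γ) F.l F.n F.m F.mb X) (Geo.hat ((hp G2).geo g2 Γ2) (h.fr F).l
      (h.fr F).n (h.fr F).m (h.fr F).mb (h.pv X)) rfl
  obtain ⟨u1, v1, e1⟩ := k F.l
  obtain ⟨u2, v2, e2⟩ := k F.n
  obtain ⟨u3, v3, e3⟩ := k F.m
  obtain ⟨u4, v4, e4⟩ := k F.mb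
  have cH := fun a => ((hp_is h.o2).tco a).2.2.2.2.1
  have cB := fun a => ((hp_is h.o2).tco a).2.2.2.2.2
  have p : ∀ X a, h.push (((hp G).geo g Γ).act (Geo.hat ((hp G).geo g Γ) F.l F.n F.m F.mb X))
      ((hp G2).co a) = h.pv X a := fun X a => by
    rw [h.push_act, cH, cB, mul_zero, mul_zero, add_zero, add_zero]
    rfl
  rw [← h.H, ← h.B] at e1 e2 e3 e4
  refine ghp_uniq (h.is (gv_geo ..) rfl (N.is i)) (N2.is i2) rfl h.H.symm h.B.symm e1 e2 e3 e4
    (hp G2).co (fun a => (DFunLike.congr_fun h.H _).trans (cH a))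
    (fun a => (DFunLike.congr_fun h.B _).trans (cB a)) fun c1 c2 c3 c4 k => ?_
  refine null_ind i2 N2.nl c1 c2 c3 c4 fun a => Eq.trans ?_ (k a)
  exact congrArg₂ (· + ·) (congrArg₂ (· + ·) (congrArg₂ (· + ·) (congrArg _ (p _ a).symm)
    (congrArg _ (p _ a).symm)) (congrArg _ (p _ a).symm)) (congrArg _ (p _ a).symm)

end Sq

/-- The pull back of a vacuum metric by a local diffeomorphism. -/
theorem vacAt_pb {f : R4 → R4} {g : Tw} {y : R4} {U : Set R4} (d : Dif U f) (hy : y ∈ U)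
    (v : VacAt g (f y)) : VacAt (P354XE.pb f g) y := by
  obtain ⟨D, o, m, h1, h2⟩ := v
  have c : ContinuousOn f U := fun x hx => (d.sm x hx).continuousAt.continuousWithinAt
  have o' := c.isOpen_inter_preimage d.op o
  have p : P354R.Pull f (P354XE.pb f g) (U ∩ f ⁻¹' D) g D := ⟨o', o, h1,
    fun x hx => (d.sm x hx.1).contDiffWithinAt, fun _ hx => hx.2, fun x hx => d.fd x hx.1,
    fun _ _ _ _ => rfl⟩
  exact ⟨_, o', ⟨hy, m⟩, P354RC.k2.1 _ _ _ _ _ p, P354RC.k2.2.1 _ _ _ _ _ p h2⟩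

namespace Sq
variable {a b : J × E6 → E6} (h : Sq G2 G a b) {b4 : J → R4 → R4} {g : J → Tw}
  (s4 : ∀ᶠ p in G2, ContDiffAt ℝ ∞ (b4 p.1) (pj p.2)) (e4 : ∀ᶠ p in G2, pj (b p) = b4 p.1 (pj p.2))
include s4 e4

/-- The pull back of a function on the base. -/
theorem pb_pb {f : J → R4 → ℝ} (hf : SmB G f) :
    h.pb (pb G f) = pb G2 fun j y => f j (b4 j y) := by
  have s : SmB G2 fun j y => f j (b4 j y) := by
    filter_upwards [s4, e4, h.tend.eventually hf] with p h1 h2 h3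
    exact ContDiffAt.comp (g := f p.1) _ (h2 ▸ h3) h1
  refine ext_rep ((h.rep_pb _).trans (EventuallyEq.trans ?_ (rs_pb h.o2 s).symm))
  filter_upwards [h.tend.eventually (rs_pb h.o hf), e4] with p h1 h2
  rw [h1, h2]

theorem jc_eq (e c : Fin 4) : Rs (h.jc e c) fun p =>
    (cv e (fderiv ℝ (b4 p.1) (pj p.2) (bs c)) : ℂ) := by
  have s : SmB G fun _ y => cv e y := .of_forall fun _ => (cv e).contDiff.contDiffAt
  have s2 : SmB G2 fun j y => cv e (b4 j y) :=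
    s4.mono fun p k => (cv e).contDiff.contDiffAt.comp _ k
  rw [jc, (rs_co h.o e).ext (rs_pb h.o s) .rfl, h.pb_pb s4 e4 s, L_pb h.o2 s2]
  refine (rs_pb h.o2 (s2.db c)).congr (s4.mono fun p k => ?_)
  have : fderiv ℝ (fun y => cv e (b4 p.1 y)) (pj p.2) = _ :=
    ((cv e).hasFDerivAt.comp _ (k.differentiableAt (by simp)).hasFDerivAt).fderiv
  simp only [db, this, ContinuousLinearMap.comp_apply]

variable (v : ∀ᶠ p in G, VacAt (g p.1) (pj p.2))
  (v2 : ∀ᶠ p in G2, VacAt (P354XE.pb (b4 p.1) (g p.1)) (pj p.2)) (k : ℝ)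
include v v2

theorem g_eq (c d : Fin 4) : (geo G2 k fun j => P354XE.pb (b4 j) (g j)).g c d =
    ∑ i, ∑ j, h.pb ((geo G k g).g i j) * h.jc i c * h.jc j d := by
  have s1 : ∀ a b, SmB G fun j => gc (g j) a b := fun a b => v.mono fun _ v => v.sm_g a b
  have r : ∀ i j, Rs (h.pb ((geo G k g).g i j)) fun p => k * gc (g p.1) i j (b4 p.1 (pj p.2)) :=
    fun i j => (h.rep_pb _).trans (((h.tend.eventually ((rs_alg (k : ℂ)).mul
      (rs_pb h.o (s1 i j)))).and e4).mono fun p e => e.1.trans (by simp only [e.2]))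
  refine ((rs_alg (k : ℂ)).mul (rs_pb h.o2 (v2.mono fun _ v => v.sm_g c d))).ext
    (Rs.sum _ fun i => Rs.sum _ fun j => ((r i j).mul (h.jc_eq s4 e4 i c)).mul (h.jc_eq s4 e4 j d)) ?_
  filter_upwards [h.tend.eventually v, e4] with p ⟨D, _, m, h1, _⟩ h2
  rw [h2] at m
  have : ∀ u w, g p.1 (b4 p.1 (pj p.2)) u w =
      ∑ i, ∑ j, gc (g p.1) i j (b4 p.1 (pj p.2)) * cv i u * cv j w := fun u w => by
    have e1 : ∀ u w, g p.1 (b4 p.1 (pj p.2)) u w =
        ∑ j, cv j w * g p.1 (b4 p.1 (pj p.2)) u (bs j) := fun u w => by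
      conv_lhs => rw [← sum_bs w]
      simp only [Fin.sum_univ_four, (h1.lin _ m u).map_add, (h1.lin _ m u).map_smul, smul_eq_mul]
    rw [e1, Finset.sum_comm]
    refine Finset.sum_congr rfl fun j _ => ?_
    rw [h1.symm _ m, e1, Finset.mul_sum]
    exact Finset.sum_congr rfl fun i _ => by rw [gc, h1.symm _ m (bs i)]; ring
  rw [gc, P354XE.pb, this]
  simp only [Complex.ofReal_sum, Complex.ofReal_mul, Finset.mul_sum, mul_assoc]

theorem geo_wn {F : Fr (Sm G)} (N : F.WN (geo G k g)) :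
    (h.fr F).WN (geo G2 k fun j => P354XE.pb (b4 j) (g j)) := h.wn (h.g_eq s4 e4 v v2 k) N

/-- **Naturality.** -/
theorem geo_ghp {F : Fr (Sm G)} (N : F.WN (geo G k g)) :
    (h.fr F).ghp (geo G2 k fun j => P354XE.pb (b4 j) (g j)) = h.ghp (F.ghp (geo G k g)) :=
  h.ghp_fr (h.g_eq s4 e4 v v2 k) (geo_is h.o k v) (geo_is h.o2 k v2) N

theorem geo_hom {F : Fr (Sm G)} (N : F.WN (geo G k g)) : GHP.Hom (F.ghp (geo G k g))
    ((h.fr F).ghp (geo G2 k fun j => P354XE.pb (b4 j) (g j))) h.pb :=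
  h.geo_ghp s4 e4 v v2 k N ▸ h.hom (gv_geo ..) rfl

end Sq

end Vale.Agent.P354XO
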