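import Vale.Agent.P354XG.Quot

/-!
Coordinates on a ring, vector fields, and the push forward of vector fields and of the GHP
calculus along a ring map with a section on the coordinates.
-/

namespace Vale.Agent.P354XO

open Vale.Agent.P354XG

variable {A B : Type*} [CommRing A] [Algebra ℂ A] [CommRing B] [Algebra ℂ B] {ι : Type}
  [Fintype ι] [DecidableEq ι]

/-- Coordinates and coordinate fields. -/
structure Co (A : Type*) [CommRing A] [Algebra ℂ A] (ι : Type) where
  x : ι → A
  d : ι → Der A

namespace Co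

/-- The relations. -/
structure Is (S : Co A ι) : Prop where
  dx : ∀ k l, S.d k (S.x l) = if k = l then 1 else 0
  comm : ∀ k l f, S.d k (S.d l f) = S.d l (S.d k f)

variable (S : Co A ι)

/-- The field with components u. -/
noncomputable def vf (u : ι → A) : Der A := ∑ k, u k • S.d k

omit [DecidableEq ι] in
theorem vf_ap (u : ι → A) (f : A) : S.vf u f = ∑ k, u k * S.d k f := by
  refine (congrFun (map_sum (Derivation.coeFnAddMonoidHom (R := ℂ) (A := A) (M := A))
    (fun k => u k • S.d k) _) f).trans ?_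
  rw [Finset.sum_apply]
  rfl

/-- D is a vector field. -/
def VF (D : Der A) : Prop := ∃ u : ι → A, ∀ f, D f = ∑ k, u k * S.d k f

variable {S} {D D' : Der A}

section
omit [DecidableEq ι]

theorem VF.vf (u : ι → A) : S.VF (S.vf u) := ⟨u, S.vf_ap u⟩

theorem VF.zero : S.VF 0 := ⟨0, fun f => by simp⟩

theorem VF.add (h : S.VF D) (h' : S.VF D') : S.VF (D + D') := by
  obtain ⟨u, hu⟩ := h
  obtain ⟨v, hv⟩ := h'
  exact ⟨u + v, fun f => by simp [hu, hv, add_mul, Finset.sum_add_distrib]⟩

theorem VF.smul (h : S.VF D) (s : A) : S.VF (s • D) := by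
  obtain ⟨u, hu⟩ := h
  exact ⟨s • u, fun f => by simp [hu, Finset.mul_sum, mul_assoc]⟩

theorem VF.neg (h : S.VF D) : S.VF (-D) := by simpa using h.smul (-1)

theorem VF.sub (h : S.VF D) (h' : S.VF D') : S.VF (D - D') := by
  simpa [sub_eq_add_neg] using h.add h'.neg

theorem VF.sum {κ : Type*} (s : Finset κ) {X : κ → Der A} (h : ∀ i ∈ s, S.VF (X i)) :
    S.VF (∑ i ∈ s, X i) := Finset.sum_induction _ _ (fun _ _ => VF.add) VF.zero h

theorem VF.congr (h : S.VF D) (e : ∀ f, D' f = D f) : S.VF D' :=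
  h.imp fun _ hu f => (e f).trans (hu f)

end

theorem VF.d (k : ι) : S.VF (S.d k) := ⟨Pi.single k 1, fun f => by simp [Pi.single_apply]⟩

variable (s : S.Is)
include s

theorem Is.vf_x (u : ι → A) (k : ι) : S.vf u (S.x k) = u k := by simp [vf_ap, s.dx]

theorem VF.eq (h : S.VF D) (f : A) : D f = ∑ k, D (S.x k) * S.d k f := by
  obtain ⟨u, hu⟩ := h
  simp [hu, s.dx]

theorem VF.ext (h : S.VF D) (h' : S.VF D') (e : ∀ k, D (S.x k) = D' (S.x k)) : D = D' :=
  Derivation.ext fun f => by simp only [h.eq s f, h'.eq s f, e]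

theorem VF.br (h : S.VF D) (h' : S.VF D') : S.VF ⁅D, D'⁆ := by
  obtain ⟨u, hu⟩ := h
  obtain ⟨v, hv⟩ := h'
  refine ⟨fun k => D (v k) - D' (u k), fun f => ?_⟩
  have e : ∑ k, v k * D (S.d k f) = ∑ k, u k * D' (S.d k f) := by
    simp only [hu, hv, Finset.mul_sum]
    rw [Finset.sum_comm]
    exact Finset.sum_congr rfl fun k _ => Finset.sum_congr rfl fun l _ => by
      rw [s.comm k l]; ring
  rw [Derivation.commutator_apply, hv f, hu f, map_sum, map_sum]
  simp only [D_mul, Finset.sum_add_distrib, e, sub_mul, Finset.sum_sub_distrib,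
    mul_comm (S.d _ f)]
  ring

theorem VF.comm {D'' : Der A} (h : S.VF D) (h' : S.VF D') (h'' : S.VF D'')
    (e : ∀ k, D (D' (S.x k)) = D' (D (S.x k)) + D'' (S.x k)) (f : A) :
    D (D' f) = D' (D f) + D'' f := by
  have := (h.br s h').ext s h'' fun k => by rw [Derivation.commutator_apply, e]; ring
  rw [← this, Derivation.commutator_apply]
  ring

end Co

/-- φ satisfies the chain rule and hits the coordinates. -/
structure Psh (S : Co A ι) (T : Co B ι) (φ : A →ₐ[ℂ] B) (a : ι → A) : Prop where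
  s : S.Is
  t : T.Is
  chain : ∀ k f, T.d k (φ f) = ∑ l, T.d k (φ (S.x l)) * φ (S.d l f)
  inv : ∀ k, φ (a k) = T.x k

/-- The push forward of a field. -/
noncomputable def push (T : Co B ι) (φ : A →ₐ[ℂ] B) (a : ι → A) (D : Der A) : Der B :=
  T.vf fun k => φ (D (a k))

variable {S : Co A ι} {T : Co B ι} {φ : A →ₐ[ℂ] B} {a : ι → A} {D D' : Der A}

omit [DecidableEq ι] in
theorem vf_push (D : Der A) : T.VF (push T φ a D) := Co.VF.vf _

namespace Psh
variable (h : Psh S T φ a)
include h

theorem push_x (D : Der A) (k : ι) : push T φ a D (T.x k) = φ (D (a k)) := h.t.vf_x _ k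

theorem jac (m l : ι) : ∑ k, φ (S.d m (a k)) * T.d k (φ (S.x l)) = if m = l then 1 else 0 := by
  have e : (Matrix.of fun k l => T.d k (φ (S.x l))) * (Matrix.of fun m k => φ (S.d m (a k))) =
      1 := by
    ext j k
    rw [Matrix.mul_apply, Matrix.one_apply, ← h.t.dx, ← h.inv, h.chain]
    rfl
  have e' := mul_eq_one_comm.1 e
  have := congrFun₂ e' m l
  rwa [Matrix.mul_apply, Matrix.one_apply] at this

/-- The ring map intertwines a field and its push forward. -/
theorem map (hD : S.VF D) (f : A) : φ (D f) = push T φ a D (φ f) := by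
  obtain ⟨u, hu⟩ := hD
  have e : ∀ l, ∑ k, φ (D (a k)) * T.d k (φ (S.x l)) = φ (u l) := fun l => by
    simp only [hu, map_sum, map_mul, Finset.sum_mul, mul_assoc]
    rw [Finset.sum_comm]
    simp [← Finset.mul_sum, h.jac]
  rw [push, Co.vf_ap, hu, map_sum]
  simp only [h.chain _ f, Finset.mul_sum, ← mul_assoc]
  rw [Finset.sum_comm]
  simp only [← Finset.sum_mul, e, map_mul]

theorem push_eq {X : Der B} (hX : T.VF X) (e : ∀ k, φ (D (a k)) = X (T.x k)) :
    push T φ a D = X := (vf_push D).ext h.t hX fun k => (h.push_x D k).trans (e k)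

theorem push_comm {D'' : Der A} (h1 : S.VF D) (h2 : S.VF D') {X : Der B} (hX : T.VF X)
    (e : ∀ f, D (D' f) = D' (D f) + D'' f) (e' : ∀ f, φ (D'' f) = X (φ f)) (f : B) :
    push T φ a D (push T φ a D' f) = push T φ a D' (push T φ a D f) + X f :=
  (vf_push D).comm h.t (vf_push D') hX (fun k => by
    rw [h.push_x, h.push_x, ← h.map h1, ← h.map h2, e, map_add, e', h.inv]) f

end Psh

/-- The conjugations are compatible with the data. -/
structure Cj (T : Co B ι) (φ : A →ₐ[ℂ] B) (a : ι → A) (c : A →+* A) (c' : B →+* B) : Prop where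
  map : ∀ f, φ (c f) = c' (φ f)
  re : ∀ k, c (a k) = a k
  d : ∀ k f, c' (T.d k f) = T.d k (c' f)
  cc : ∀ f, c' (c' f) = f

omit [DecidableEq ι] in
theorem Cj.push {c : A →+* A} {c' : B →+* B} (h : Cj T φ a c c')
    (e : ∀ f, c (D f) = D' (c f)) (f : B) : c' (push T φ a D f) = push T φ a D' (c' f) := by
  simp only [P354XO.push, Co.vf_ap, map_sum, map_mul, h.d, ← h.map, e, h.re]

/-- The push forward of the GHP calculus. -/
noncomputable def gpush (T : Co B ι) (φ : A →ₐ[ℂ] B) (a : ι → A) (c' : B →+* B) (G : GHP A) :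
    GHP B where
  c := c'
  th := push T φ a G.th
  tp := push T φ a G.tp
  et := push T φ a G.et
  ep := push T φ a G.ep
  H := push T φ a G.H
  Hb := push T φ a G.Hb
  ka := φ G.ka
  si := φ G.si
  rh := φ G.rh
  ta := φ G.ta
  ka' := φ G.ka'
  si' := φ G.si'
  rh' := φ G.rh'
  ta' := φ G.ta'
  P0 := φ G.P0
  P1 := φ G.P1
  P2 := φ G.P2
  P3 := φ G.P3
  P4 := φ G.P4

/-- The six derivations are vector fields. -/
structure GV (S : Co A ι) (G : GHP A) : Prop where
  th : S.VF G.th
  tp : S.VF G.tp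
  et : S.VF G.et
  ep : S.VF G.ep
  H : S.VF G.H
  Hb : S.VF G.Hb

variable {G : GHP A} {G' : GHP B} {c' : B →+* B}

omit [DecidableEq ι] in
theorem GV.pr (h : GV S G) : GV S G.pr := ⟨h.tp, h.th, h.ep, h.et, h.H.neg, h.Hb.neg⟩

omit [DecidableEq ι] in
theorem gv_gpush : GV T (gpush T φ a c' G) :=
  ⟨vf_push _, vf_push _, vf_push _, vf_push _, vf_push _, vf_push _⟩

theorem Psh.hom (h : Psh S T φ a) (v : GV S G) (j : Cj T φ a G.c c') :
    GHP.Hom G (gpush T φ a c' G) φ :=
  ⟨j.map, h.map v.th, h.map v.tp, h.map v.et, h.map v.ep, h.map v.H, h.map v.Hb, rfl, rfl, rfl,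
    rfl, rfl, rfl, rfl, rfl, rfl, rfl, rfl, rfl, rfl⟩

theorem half_of (t : T.Is) (inv : ∀ k, φ (a k) = T.x k) (m : GHP.Hom G G' φ) (v : GV T G')
    (j : Cj T φ a G.c G'.c) (h : G.Half) : G'.Half := by
  have key : ∀ {x y : A}, x = y → φ x = φ y := fun e => by rw [e]
  have cx : ∀ k, G'.c (T.x k) = T.x k := fun k => by rw [← inv, ← j.map, j.re]
  have cj : ∀ {X Y : Der B}, T.VF X → T.VF Y → (∀ f, G'.c (X (φ f)) = Y (G'.c (φ f))) →
      ∀ f, G'.c (X f) = Y (G'.c f) := fun {X Y} hX hY e f => by
    rw [hX.eq t f, hY.eq t (G'.c f), map_sum]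
    refine Finset.sum_congr rfl fun k _ => ?_
    rw [map_mul, j.d, ← inv, e, inv, cx]
  have cm : ∀ {X Y Z : Der B}, T.VF X → T.VF Y → T.VF Z →
      (∀ f, X (Y (φ f)) = Y (X (φ f)) + Z (φ f)) → ∀ f, X (Y f) = Y (X f) + Z f :=
    fun hX hY hZ e => hX.comm t hY hZ fun k => inv k ▸ e _
  constructor
  case cc => exact j.cc
  case calg =>
    intro z
    have := key (h.calg z)
    rwa [m.c, φ.commutes, φ.commutes] at this
  case c_th => exact cj v.th v.th fun f => by simpa only [m.c, m.th] using key (h.c_th f)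
  case c_et => exact cj v.et v.ep fun f => by simpa only [m.c, m.et, m.ep] using key (h.c_et f)
  case c_H => exact cj v.H v.Hb fun f => by simpa only [m.c, m.H, m.Hb] using key (h.c_H f)
  case H_Hb =>
    exact fun f => (cm v.H v.Hb .zero (fun f => by
      simpa only [m.H, m.Hb, Derivation.zero_apply, add_zero] using key (h.H_Hb f)) f).trans
      (add_zero _)
  case H_th =>
    exact cm v.H v.th v.th fun f => by simpa only [map_add, m.H, m.th] using key (h.H_th f)
  case H_et =>
    exact cm v.H v.et v.et fun f => by simpa only [map_add, m.H, m.et] using key (h.H_et f)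
  case th_tp =>
    intro f
    have := cm v.th v.tp ((((v.et.smul (G'.c G'.ta - G'.ta')).add
      (v.ep.smul (G'.ta - G'.c G'.ta'))).sub (v.H.smul (G'.ka * G'.ka' - G'.ta * G'.ta' + G'.P2))).sub
      (v.Hb.smul (G'.c G'.ka * G'.c G'.ka' - G'.c G'.ta * G'.c G'.ta' + G'.c G'.P2))) (fun f => by
        have := key (h.th_tp f)
        simp only [map_add, map_sub, map_mul, m.c, m.th, m.tp, m.et, m.ep, m.H, m.Hb, m.ka,
          m.ta, m.ka', m.ta', m.P2] at this
        simp only [Derivation.add_apply, Derivation.sub_apply, Derivation.smul_apply, smul_eq_mul]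
        linear_combination this) f
    simp only [Derivation.add_apply, Derivation.sub_apply, Derivation.smul_apply, smul_eq_mul]
      at this
    linear_combination this
  case th_et =>
    intro f
    have := cm v.th v.et ((((((v.et.smul (G'.c G'.rh)).add (v.ep.smul G'.si)).sub
      (v.th.smul (G'.c G'.ta'))).sub (v.tp.smul G'.ka)).sub
      (v.H.smul (G'.rh' * G'.ka - G'.ta' * G'.si + G'.P1))).sub
      (v.Hb.smul (G'.c G'.si' * G'.c G'.ka - G'.c G'.rh * G'.c G'.ta'))) (fun f => by
        have := key (h.th_et f)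
        simp only [map_add, map_sub, map_mul, m.c, m.th, m.tp, m.et, m.ep, m.H, m.Hb, m.ka, m.si,
          m.rh, m.si', m.rh', m.ta', m.P1] at this
        simp only [Derivation.add_apply, Derivation.sub_apply, Derivation.smul_apply, smul_eq_mul]
        linear_combination this) f
    simp only [Derivation.add_apply, Derivation.sub_apply, Derivation.smul_apply, smul_eq_mul]
      at this
    linear_combination this
  case et_ep =>
    intro f
    have := cm v.et v.ep ((((v.th.smul (G'.c G'.rh' - G'.rh')).add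
      (v.tp.smul (G'.rh - G'.c G'.rh))).add (v.H.smul (G'.rh * G'.rh' - G'.si * G'.si' + G'.P2))).sub
      (v.Hb.smul (G'.c G'.rh * G'.c G'.rh' - G'.c G'.si * G'.c G'.si' + G'.c G'.P2))) (fun f => by
        have := key (h.et_ep f)
        simp only [map_add, map_sub, map_mul, m.c, m.th, m.tp, m.et, m.ep, m.H, m.Hb, m.si,
          m.rh, m.si', m.rh', m.P2] at this
        simp only [Derivation.add_apply, Derivation.sub_apply, Derivation.smul_apply, smul_eq_mul]
        linear_combination this) f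
    simp only [Derivation.add_apply, Derivation.sub_apply, Derivation.smul_apply, smul_eq_mul]
      at this
    linear_combination this
  all_goals
    first
    | simpa only [map_mul, map_ofNat, m.H, m.ka] using key h.H_ka
    | simpa only [m.Hb, m.ka] using key h.Hb_ka
    | simpa only [map_mul, map_ofNat, m.H, m.si] using key h.H_si
    | simpa only [map_neg, m.Hb, m.si] using key h.Hb_si
    | simpa only [m.H, m.rh] using key h.H_rh
    | simpa only [m.Hb, m.rh] using key h.Hb_rh
    | simpa only [m.H, m.ta] using key h.H_ta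
    | simpa only [map_neg, m.Hb, m.ta] using key h.Hb_ta
    | simpa only [map_mul, map_ofNat, m.H, m.P0] using key h.H_P0
    | simpa only [map_zero, m.Hb, m.P0] using key h.Hb_P0
    | simpa only [map_mul, map_ofNat, m.H, m.P1] using key h.H_P1
    | simpa only [map_zero, m.Hb, m.P1] using key h.Hb_P1
    | simpa only [map_zero, m.H, m.P2] using key h.H_P2
    | simpa only [map_zero, m.Hb, m.P2] using key h.Hb_P2
    | simpa only [map_add, map_sub, map_mul, map_pow, m.c, m.th, m.tp, m.et, m.ep, m.ka, m.si,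
        m.rh, m.ta, m.ka', m.si', m.rh', m.ta'] using key h.r1
    | simpa only [map_add, map_sub, map_mul, map_pow, m.c, m.th, m.tp, m.et, m.ep, m.ka, m.si,
        m.rh, m.ta, m.ka', m.si', m.rh', m.ta', m.P0] using key h.r2
    | simpa only [map_add, map_sub, map_mul, map_pow, m.c, m.th, m.tp, m.et, m.ep, m.ka, m.si,
        m.rh, m.ta, m.ka', m.si', m.rh', m.ta', m.P1] using key h.r3
    | simpa only [map_add, map_sub, map_mul, map_pow, m.c, m.th, m.tp, m.et, m.ep, m.ka, m.si,
        m.rh, m.ta, m.ka', m.si', m.rh', m.ta', m.P1] using key h.r4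
    | simpa only [map_add, map_sub, map_mul, map_pow, map_neg, m.c, m.th, m.tp, m.et, m.ep, m.ka,
        m.si, m.rh, m.ta, m.ka', m.si', m.rh', m.ta'] using key h.r5
    | simpa only [map_add, map_sub, map_mul, map_pow, m.c, m.th, m.tp, m.et, m.ep, m.ka, m.si,
        m.rh, m.ta, m.ka', m.si', m.rh', m.ta', m.P2] using key h.r6
    | simpa only [map_add, map_sub, map_mul, map_ofNat, m.th, m.ep, m.ka, m.si', m.rh, m.ta',
        m.P0, m.P1, m.P2, m.P3, m.P4] using key h.b1
    | simpa only [map_add, map_sub, map_mul, map_ofNat, m.th, m.ep, m.ka, m.si', m.rh, m.ta',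
        m.P0, m.P1, m.P2, m.P3, m.P4] using key h.b2
    | simpa only [map_add, map_sub, map_mul, map_ofNat, m.th, m.ep, m.ka, m.si', m.rh, m.ta',
        m.P0, m.P1, m.P2, m.P3, m.P4] using key h.b3
    | simpa only [map_add, map_sub, map_mul, map_ofNat, m.th, m.ep, m.ka, m.si', m.rh, m.ta',
        m.P0, m.P1, m.P2, m.P3, m.P4] using key h.b4

/-- The equations pass along a morphism which hits the coordinates. -/
theorem is_of (t : T.Is) (inv : ∀ k, φ (a k) = T.x k) (m : GHP.Hom G G' φ) (v : GV T G')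
    (j : Cj T φ a G.c G'.c) (h : G.Is) : G'.Is :=
  ⟨half_of t inv m v j h.h, half_of t inv m.pr v.pr j h.p⟩

/-- The push forward satisfies the GHP equations. -/
theorem Psh.is (h : Psh S T φ a) (v : GV S G) (j : Cj T φ a G.c c') (i : G.Is) :
    (gpush T φ a c' G).Is := is_of h.t h.inv (h.hom v j) gv_gpush j i

end Vale.Agent.P354XO
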