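import Vale.Agent.P354XO.Inv

/-!
An equivariant map of the chart which is C1 close to a dilation of the time is a diffeomorphism
onto its image; the points which are hit.
-/

open scoped ContDiff
open Set Filter Topology Function Metric

namespace Vale.Agent.P354XO

open Vale.Agent.P354XG (E6)

/-- The cone over D. -/
def Om (D : Set (ℝ × ℝ)) : Set E6 := {x | (x.1, x.2.1) ∈ D ∧ x.2.2 ≠ 0}

/-- The action of the complex numbers. -/
noncomputable def sc (z : ℂ) : E6 →L[ℝ] E6 := (ContinuousLinearMap.id ℝ ℝ).prodMap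
  ((ContinuousLinearMap.id ℝ ℝ).prodMap ((z • ContinuousLinearMap.id ℂ (ℂ × ℂ)).restrictScalars ℝ))

/-- The dilation of the time. -/
noncomputable def dg (l : ℝ) : E6 →L[ℝ] E6 :=
  (l • ContinuousLinearMap.id ℝ ℝ).prodMap (ContinuousLinearMap.id ℝ _)

theorem sc_ap (z : ℂ) (x : E6) : sc z x = (x.1, x.2.1, z • x.2.2) := rfl
theorem dg_ap (l : ℝ) (x : E6) : dg l x = (l * x.1, x.2) := rfl

variable {D : Set (ℝ × ℝ)} {a : E6 → E6} {l c e κ ρ : ℝ} {x y : E6} {z : ℂ}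

theorem sc_sc (z w : ℂ) (x : E6) : sc z (sc w x) = sc (z * w) x := by simp [sc_ap, smul_smul]
theorem sc_inv (hz : z ≠ 0) (x : E6) : sc z (sc z⁻¹ x) = x := by simp [sc_ap, smul_smul, hz]
theorem inv_sc (hz : z ≠ 0) (x : E6) : sc z⁻¹ (sc z x) = x := by simp [sc_ap, smul_smul, hz]

theorem norm_e6 (x : E6) : ‖x‖ = max |x.1| (max |x.2.1| ‖x.2.2‖) := rfl

theorem norm_sc (z : ℂ) (x : E6) : ‖sc z x‖ ≤ max 1 ‖z‖ * ‖x‖ := by
  have h1 : ‖x‖ ≤ max 1 ‖z‖ * ‖x‖ := le_mul_of_one_le_left (norm_nonneg _) (le_max_left _ _)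
  rw [norm_e6, sc_ap]
  refine max_le ((norm_fst_le x).trans h1) (max_le
    (((norm_fst_le x.2).trans (norm_snd_le x)).trans h1) ?_)
  rw [norm_smul]
  exact mul_le_mul (le_max_right _ _) ((norm_snd_le x.2).trans (norm_snd_le x)) (norm_nonneg _)
    (by positivity)

theorem max_mul_le (h1 : ρ⁻¹ ≤ ‖z‖) (h2 : ‖z‖ ≤ ρ) (h0 : 1 ≤ ρ) :
    max 1 ‖z‖ * max 1 ‖z⁻¹‖ ≤ ρ := by
  have p : 0 < ‖z‖ := (inv_pos.2 (by linarith)).trans_le h1
  rw [norm_inv]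
  rcases le_total 1 ‖z‖ with h | h
  · rwa [max_eq_right h, max_eq_left (inv_le_one_of_one_le₀ h), mul_one]
  · rw [max_eq_left h, max_eq_right ((one_le_inv₀ p).2 h), one_mul]
    exact inv_le_of_inv_le₀ (by linarith) h1

theorem low_dg (hl : 1 / 2 ≤ l) (w : E6) : 1 / 2 * ‖w‖ ≤ ‖dg l w‖ := by
  have h1 : l * |w.1| ≤ ‖dg l w‖ := by
    have := norm_fst_le (dg l w)
    rwa [dg_ap, Real.norm_eq_abs, abs_mul, abs_of_nonneg (by linarith : 0 ≤ l)] at this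
  have h2 : ‖w.2‖ ≤ ‖dg l w‖ := norm_snd_le (dg l w)
  have h3 : ‖w‖ ≤ 2 * ‖dg l w‖ := max_le (by
    rw [Real.norm_eq_abs]; nlinarith [abs_nonneg w.1]) (by linarith [norm_nonneg w.2])
  linarith

theorem om_open (h : IsOpen D) : IsOpen (Om D) :=
  (h.preimage (by fun_prop : Continuous fun x : E6 => (x.1, x.2.1))).inter
    (isOpen_ne.preimage (by fun_prop : Continuous fun x : E6 => x.2.2))

theorem om_sc (hx : x ∈ Om D) (hz : z ≠ 0) : sc z x ∈ Om D := ⟨hx.1, smul_ne_zero hz hx.2⟩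

/-- The norm of the spinor, as a complex number. -/
noncomputable def nz (x : E6) : ℂ := (‖x.2.2‖ : ℝ)

theorem norm_nz (x : E6) : ‖nz x‖ = ‖x.2.2‖ := by simp [nz]
theorem nz_ne (h : x.2.2 ≠ 0) : nz x ≠ 0 := norm_ne_zero_iff.1 (by rwa [norm_nz, norm_ne_zero_iff])
theorem norm_unit (h : x.2.2 ≠ 0) : ‖(sc (nz x)⁻¹ x).2.2‖ = 1 := by
  rw [sc_ap, norm_smul, norm_inv, norm_nz, inv_mul_cancel₀ (norm_ne_zero_iff.2 h)]

/-- The mean value inequality holds in D for points with close radii. -/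
def Walk (κ d : ℝ) (D : Set (ℝ × ℝ)) : Prop :=
  ∀ p ∈ D, ∀ q ∈ D, |p.2 - q.2| ≤ d → ∀ (g : ℝ × ℝ → E6) (c : ℝ),
    (∀ x ∈ D, DifferentiableAt ℝ g x ∧ ‖fderiv ℝ g x‖ ≤ c) → ‖g p - g q‖ ≤ κ * c * ‖p - q‖

/-- The hypotheses on the chart. -/
structure Box (D : Set (ℝ × ℝ)) (a : E6 → E6) (l c e : ℝ) : Prop where
  op : IsOpen D
  sm : ∀ x ∈ Om D, ContDiffAt ℝ ∞ a x
  eqv : ∀ x ∈ Om D, ∀ z : ℂ, z ≠ 0 → a (sc z x) = sc z (a x)
  d : ∀ x ∈ Om D, ‖x.2.2‖ = 1 → ‖fderiv ℝ a x - dg l‖ ≤ c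
  r : ∀ x ∈ Om D, ‖x.2.2‖ = 1 → |(a x).2.1 - x.2.1| ≤ e
  xi : ∀ x ∈ Om D, ‖x.2.2‖ = 1 → ‖(a x).2.2 - x.2.2‖ ≤ e
  hl : 1 / 2 ≤ l
  c0 : 0 ≤ c
  hc : c ≤ 1 / 8
  e0 : 0 ≤ e
  he : e ≤ 1 / 8

namespace Box
variable (h : Box D a l c e)
include h

theorem df (hx : x ∈ Om D) : DifferentiableAt ℝ a x := (h.sm x hx).differentiableAt (by simp)

theorem unit (hx : x ∈ Om D) : a x = sc (nz x) (a (sc (nz x)⁻¹ x)) := by
  rw [h.eqv x hx _ (inv_ne_zero (nz_ne hx.2)), sc_inv (nz_ne hx.2)]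

theorem t_sc (hx : x ∈ Om D) (hz : z ≠ 0) : (a (sc z x)).1 = (a x).1 := by rw [h.eqv x hx z hz]; rfl

theorem r' (hx : x ∈ Om D) : |(a x).2.1 - x.2.1| ≤ e := by
  rw [h.unit hx]
  exact h.r _ (om_sc hx (inv_ne_zero (nz_ne hx.2))) (norm_unit hx.2)

theorem xi' (hx : x ∈ Om D) : ‖(a x).2.2 - x.2.2‖ ≤ e * ‖x.2.2‖ := by
  have := h.xi _ (om_sc hx (inv_ne_zero (nz_ne hx.2))) (norm_unit hx.2)
  have e1 : (a x).2.2 - x.2.2 = nz x • ((a (sc (nz x)⁻¹ x)).2.2 - (sc (nz x)⁻¹ x).2.2) := by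
    rw [smul_sub]
    exact congrArg₂ (· - ·) (congrArg (·.2.2) (h.unit hx))
      (congrArg (·.2.2) (sc_inv (nz_ne hx.2) x)).symm
  rw [e1, norm_smul, norm_nz, mul_comm]
  exact mul_le_mul_of_nonneg_right this (norm_nonneg _)

theorem xi_le (hx : x ∈ Om D) :
    7 / 8 * ‖x.2.2‖ ≤ ‖(a x).2.2‖ ∧ ‖(a x).2.2‖ ≤ 9 / 8 * ‖x.2.2‖ := by
  have := abs_le.1 ((abs_norm_sub_norm_le _ _).trans (h.xi' hx))
  have := mul_le_mul_of_nonneg_right h.he (norm_nonneg x.2.2)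
  constructor <;> linarith

theorem xi_ne (hx : x ∈ Om D) : (a x).2.2 ≠ 0 :=
  norm_pos_iff.1 (by linarith [(h.xi_le hx).1, norm_pos_iff.2 hx.2])

theorem fd_sc (hx : x ∈ Om D) (hz : z ≠ 0) (w : E6) :
    fderiv ℝ a (sc z x) w = sc z (fderiv ℝ a x (sc z⁻¹ w)) := by
  have e1 : a ∘ sc z =ᶠ[𝓝 x] sc z ∘ a :=
    mem_of_superset ((om_open h.op).mem_nhds hx) fun y hy => h.eqv y hy z hz
  have := e1.fderiv_eq (𝕜 := ℝ)
  rw [((h.df (om_sc hx hz)).hasFDerivAt.comp x (sc z).hasFDerivAt).fderiv,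
    ((sc z).hasFDerivAt.comp x (h.df hx).hasFDerivAt).fderiv] at this
  simpa only [ContinuousLinearMap.comp_apply, sc_inv hz] using DFunLike.congr_fun this (sc z⁻¹ w)

theorem d' (hx : x ∈ Om D) (h0 : 1 ≤ ρ) (h1 : ρ⁻¹ ≤ ‖x.2.2‖) (h2 : ‖x.2.2‖ ≤ ρ) :
    ‖fderiv ℝ a x - dg l‖ ≤ ρ * c := by
  have hz := nz_ne hx.2
  have hu := om_sc hx (inv_ne_zero hz)
  refine ContinuousLinearMap.opNorm_le_bound _ (mul_nonneg (by linarith) h.c0) fun w => ?_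
  have e1 : (fderiv ℝ a x - dg l) w =
      sc (nz x) ((fderiv ℝ a (sc (nz x)⁻¹ x) - dg l) (sc (nz x)⁻¹ w)) := by
    rw [sub_apply, sub_apply, map_sub, ← h.fd_sc hu hz,
      sc_inv hz]
    exact congrArg (_ - ·) (sc_inv hz (dg l w)).symm
  rw [← norm_nz] at h1 h2
  calc _ ≤ max 1 ‖nz x‖ * (c * (max 1 ‖(nz x)⁻¹‖ * ‖w‖)) := by
        rw [e1]
        refine (norm_sc _ _).trans (mul_le_mul_of_nonneg_left ?_ (by positivity))
        exact (ContinuousLinearMap.le_opNorm _ _).trans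
          (mul_le_mul (h.d _ hu (norm_unit hx.2)) (norm_sc _ _) (norm_nonneg _) h.c0)
    _ = max 1 ‖nz x‖ * max 1 ‖(nz x)⁻¹‖ * (c * ‖w‖) := by ring
    _ ≤ ρ * (c * ‖w‖) :=
        mul_le_mul_of_nonneg_right (max_mul_le h1 h2 h0) (mul_nonneg h.c0 (norm_nonneg _))
    _ = _ := by ring

theorem low (hx : x ∈ Om D) (h0 : 1 ≤ ρ) (h1 : ρ⁻¹ ≤ ‖x.2.2‖) (h2 : ‖x.2.2‖ ≤ ρ) (w : E6) :
    1 / (4 * ρ) * ‖w‖ ≤ ‖fderiv ℝ a x w‖ := by
  have hz := nz_ne hx.2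
  have hu := om_sc hx (inv_ne_zero hz)
  obtain ⟨u, rfl⟩ : ∃ u, w = sc (nz x) u := ⟨_, (sc_inv hz w).symm⟩
  have e1 := h.fd_sc hu hz (sc (nz x) u)
  rw [sc_inv hz, inv_sc hz] at e1
  have e2 := norm_sc (nz x)⁻¹ (fderiv ℝ a x (sc (nz x) u))
  rw [e1, inv_sc hz, ← e1] at e2
  have e3 := (fderiv ℝ a (sc (nz x)⁻¹ x) - dg l).le_of_opNorm_le
    ((h.d _ hu (norm_unit hx.2)).trans h.hc) u
  have e4 := norm_sub_norm_le (dg l u) (fderiv ℝ a (sc (nz x)⁻¹ x) u)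
  rw [norm_sub_rev] at e4
  rw [sub_apply] at e3
  have e5 := low_dg h.hl u
  rw [← norm_nz] at h1 h2
  rw [one_div, inv_mul_le_iff₀ (by linarith)]
  calc _ ≤ max 1 ‖nz x‖ * ‖u‖ := norm_sc _ _
    _ ≤ max 1 ‖nz x‖ * (4 * (max 1 ‖(nz x)⁻¹‖ * ‖fderiv ℝ a x (sc (nz x) u)‖)) :=
        mul_le_mul_of_nonneg_left (by linarith [norm_nonneg u]) (by positivity)
    _ = 4 * (max 1 ‖nz x‖ * max 1 ‖(nz x)⁻¹‖) * ‖fderiv ℝ a x (sc (nz x) u)‖ := by ring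
    _ ≤ _ := mul_le_mul_of_nonneg_right (by linarith [max_mul_le h1 h2 h0]) (norm_nonneg _)

theorem fd_inj (hx : x ∈ Om D) : Injective (fderiv ℝ a x) := by
  have p := norm_pos_iff.2 hx.2
  have h0 : 1 ≤ max 1 (max ‖x.2.2‖ ‖x.2.2‖⁻¹) := le_max_left _ _
  exact inj_of_low (by positivity) (h.low hx h0 (inv_le_of_inv_le₀ p
    ((le_max_right _ _).trans (le_max_right _ _))) ((le_max_left _ _).trans (le_max_right _ _)))

/-- The mean value inequality on a convex subset of the shell. -/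
theorem mvt {S : Set E6} (hS : Convex ℝ S) (h0 : 1 ≤ ρ)
    (s : ∀ x ∈ S, (x.1, x.2.1) ∈ D ∧ ρ⁻¹ ≤ ‖x.2.2‖ ∧ ‖x.2.2‖ ≤ ρ) (hx : x ∈ S) (hy : y ∈ S) :
    ‖a y - a x - dg l (y - x)‖ ≤ ρ * c * ‖y - x‖ := by
  have o : ∀ x ∈ S, x ∈ Om D := fun x hx => ⟨(s x hx).1, norm_pos_iff.1
    ((inv_pos.2 (by linarith)).trans_le (s x hx).2.1)⟩
  exact hS.norm_image_sub_le_of_norm_fderiv_le' (fun x hx => h.df (o x hx))
    (fun x hx => h.d' (o x hx) h0 (s x hx).2.1 (s x hx).2.2) hx hy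

theorem inj1 (w : Walk κ (2 * e) D) (k0 : 0 ≤ κ) (hk : (κ + 2) * c < 1 / 2) (hx : x ∈ Om D)
    (hy : y ∈ Om D) (n : ‖x.2.2‖ = 1) (e1 : a x = a y) : x = y := by
  let m : E6 := (y.1, y.2.1, x.2.2)
  let I : ℝ × ℝ →L[ℝ] E6 := (ContinuousLinearMap.id ℝ ℝ).prodMap (.inl ℝ ℝ (ℂ × ℂ))
  have nI : ‖I‖ ≤ 1 := I.opNorm_le_bound zero_le_one fun p => by
    rw [one_mul]
    exact max_le (norm_fst_le p) (max_le (norm_snd_le p) (norm_zero.trans_le (norm_nonneg _)))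
  have k1 := w _ hx.1 _ hy.1 (by
    have := abs_le.1 (h.r' hx)
    have := abs_le.1 (h.r' hy)
    rw [e1] at *
    exact abs_le.2 ⟨by linarith, by linarith⟩)
    (fun p => a (I p + (0, 0, x.2.2)) - dg l (I p + (0, 0, x.2.2))) c fun p hp => by
      have o : I p + (0, 0, x.2.2) ∈ Om D := by simpa [I, Om, hp] using hx.2
      have f := ((h.df o).hasFDerivAt.sub (dg l).hasFDerivAt).comp p
        (I.hasFDerivAt.add_const (0, 0, x.2.2))
      refine ⟨f.differentiableAt, ?_⟩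
      refine (congrArg norm f.fderiv).trans_le ((ContinuousLinearMap.opNorm_comp_le _ _).trans ?_)
      simpa only [mul_one] using mul_le_mul (h.d _ o (by simpa [I] using n)) nI (norm_nonneg _) h.c0
  have e2 : I (x.1, x.2.1) + (0, 0, x.2.2) = x := by simp [I]
  have e3 : I (y.1, y.2.1) + (0, 0, x.2.2) = m := by simp [I, m]
  simp only [e2, e3] at k1
  have n1 : ‖y.2.2 - x.2.2‖ ≤ 1 / 2 := by
    have a1 := h.xi' hx
    have a2 := h.xi' hy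
    have a3 := (h.xi_le hx).2
    have a4 := (h.xi_le hy).1
    rw [e1] at a1 a3
    have a5 := norm_sub_le_norm_sub_add_norm_sub y.2.2 (a y).2.2 x.2.2
    rw [norm_sub_rev y.2.2 (a y).2.2] at a5
    have a6 := mul_le_mul_of_nonneg_right h.he (norm_nonneg y.2.2)
    rw [n] at a1 a3
    linarith [h.he]
  have k2 := h.mvt (S := {y.1} ×ˢ {y.2.1} ×ˢ closedBall x.2.2 (1 / 2)) (ρ := 2) (x := m) (y := y)
    ((convex_singleton _).prod ((convex_singleton _).prod (convex_closedBall _ _))) one_le_two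
    (fun u hu => by
      have := abs_le.1 ((abs_norm_sub_norm_le _ _).trans (mem_closedBall_iff_norm.1 hu.2.2))
      rw [hu.1, hu.2.1]
      exact ⟨hy.1, by linarith, by linarith⟩)
    ⟨rfl, rfl, mem_closedBall_self (by norm_num)⟩ ⟨rfl, rfl, mem_closedBall_iff_norm.2 n1⟩
  have n2 : ‖((x.1, x.2.1) : ℝ × ℝ) - (y.1, y.2.1)‖ ≤ ‖x - y‖ :=
    max_le (norm_fst_le (x - y)) ((norm_fst_le (x - y).2).trans (norm_snd_le (x - y)))
  have n3 : ‖y - m‖ ≤ ‖x - y‖ := by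
    rw [norm_sub_rev x, norm_e6 (y - m)]
    simp only [m, Prod.fst_sub, Prod.snd_sub, sub_self, abs_zero, max_le_iff, norm_nonneg, true_and]
    exact (norm_snd_le (y - x).2).trans (norm_snd_le (y - x))
  have e4 : dg l (x - y) = a y - a m - dg l (y - m) - (a x - dg l x - (a m - dg l m)) := by
    simp only [map_sub, e1]; abel
  have k3 := low_dg h.hl (x - y)
  have k4 := norm_sub_le (a y - a m - dg l (y - m)) (a x - dg l x - (a m - dg l m))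
  rw [← e4] at k4
  have k5 := mul_le_mul_of_nonneg_left n2 (mul_nonneg k0 h.c0)
  have k6 := mul_le_mul_of_nonneg_left n3 (mul_nonneg zero_le_two h.c0)
  have k7 : (1 / 2 - (κ + 2) * c) * ‖x - y‖ ≤ 0 := by linarith
  exact sub_eq_zero.1 (norm_le_zero_iff.1 (nonpos_of_mul_nonpos_right k7 (by linarith)))

/-- The chart is a diffeomorphism onto its image. -/
theorem dif (w : Walk κ (2 * e) D) (k0 : 0 ≤ κ) (hk : (κ + 2) * c < 1 / 2) : Dif (Om D) a := by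
  refine ⟨om_open h.op, h.sm, fun _ => h.fd_inj, fun x hx y hy e1 => ?_⟩
  have hz := inv_ne_zero (nz_ne hx.2)
  have := h.inj1 w k0 hk (om_sc hx hz) (om_sc hy hz) (norm_unit hx.2)
    (by rw [h.eqv x hx _ hz, h.eqv y hy _ hz, e1])
  rw [← inv_sc hz x, this, inv_sc hz]

theorem im_sc (hy : y ∈ a '' Om D) (hz : z ≠ 0) : sc z y ∈ a '' Om D := by
  obtain ⟨x, hx, rfl⟩ := hy
  exact ⟨_, om_sc hx hz, h.eqv x hx z hz⟩

theorem inv_eqv (i : InjOn a (Om D)) (hy : y ∈ a '' Om D) (hz : z ≠ 0) :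
    invFunOn a (Om D) (sc z y) = sc z (invFunOn a (Om D) y) := by
  obtain ⟨x, hx, rfl⟩ := hy
  rw [← h.eqv x hx z hz, i.leftInvOn_invFunOn hx, i.leftInvOn_invFunOn (om_sc hx hz)]

/-- The point y is hit if its time is taken over its radius and spinor. -/
theorem hit0 {t : ℝ} (n : y.2.2 ≠ 0) (s : closedBall (t, y.2.1) (4 * e) ⊆ D)
    (ht : (a (t, y.2)).1 = y.1) : ∃ x ∈ Om D, a x = y ∧ |x.1 - t| ≤ 4 * e := by
  have e0 := h.e0
  wlog n1 : ‖y.2.2‖ = 1 generalizing y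
  · have hz := inv_ne_zero (nz_ne n)
    obtain ⟨x, hx, e1, e2⟩ := this (y := sc (nz y)⁻¹ y) (smul_ne_zero hz n) s
      ((h.t_sc (x := (t, y.2)) ⟨s (mem_closedBall_self (by linarith)), n⟩ hz).trans ht)
      (norm_unit n)
    exact ⟨_, om_sc hx (nz_ne n), by rw [h.eqv x hx _ (nz_ne n), e1, sc_inv (nz_ne n)], e2⟩
  have o : ∀ x ∈ closedBall ((t, y.2) : E6) (4 * e),
      x ∈ Om D ∧ 2⁻¹ ≤ ‖x.2.2‖ ∧ ‖x.2.2‖ ≤ 2 := fun x hx => by
    rw [mem_closedBall_iff_norm, norm_e6, max_le_iff, max_le_iff] at hx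
    have := abs_le.1 ((abs_norm_sub_norm_le _ _).trans hx.2.2)
    have := h.he
    exact ⟨⟨s (mem_closedBall_iff_norm.2 (max_le hx.1 hx.2.1)), norm_pos_iff.1 (by linarith)⟩,
      by linarith, by linarith⟩
  have o0 := (o _ (mem_closedBall_self (by linarith))).1
  have l0 : l ≠ 0 := by linarith [h.hl] |> ne_of_gt
  obtain ⟨x, hx, e1⟩ := hit (a := a) (x := (t, y.2)) (y := y) (L := dg l) (L' := dg l⁻¹)
    (c := 2 * c) (d := 4 * e) zero_le_two (by linarith [h.c0]) (by linarith)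
    (fun u => by simp [dg_ap, l0]) (fun u => by
      have := low_dg h.hl (dg l⁻¹ u)
      rw [show dg l (dg l⁻¹ u) = u by simp [dg_ap, l0]] at this
      linarith) (fun x hx => h.df (o x hx).1)
    (fun x hx => h.d' (o x hx).1 one_le_two (o x hx).2.1 (o x hx).2.2) (by
      refine le_trans (b := e) ?_ (by nlinarith [h.hc])
      rw [norm_sub_rev, norm_e6]
      exact max_le (by simpa [ht] using e0) (max_le (h.r _ o0 n1) (h.xi _ o0 n1)))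
  exact ⟨x, (o x hx).1, e1, (norm_fst_le (x - (t, y.2))).trans (mem_closedBall_iff_norm.1 hx)⟩

theorem hit1 {t1 t2 : ℝ} (n : y.2.2 ≠ 0) (ht : t1 ≤ t2)
    (s : Icc (t1 - 4 * e) (t2 + 4 * e) ×ˢ Icc (y.2.1 - 4 * e) (y.2.1 + 4 * e) ⊆ D)
    (h1 : (a (t1, y.2)).1 ≤ y.1) (h2 : y.1 ≤ (a (t2, y.2)).1) :
    ∃ x ∈ Om D, a x = y ∧ x.1 ∈ Icc (t1 - 4 * e) (t2 + 4 * e) := by
  have e0 := h.e0
  have k : ContinuousOn (fun t => (a (t, y.2)).1) (Icc t1 t2) := fun t m =>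
    (continuousAt_fst.comp ((h.df (x := (t, y.2)) ⟨s ⟨⟨by linarith [m.1], by linarith [m.2]⟩,
      by simp only; linarith, by simp only; linarith⟩, n⟩).continuousAt.comp
      (f := fun t => (t, y.2)) (by fun_prop))).continuousWithinAt
  obtain ⟨t, m, e1⟩ := intermediate_value_Icc ht k ⟨h1, h2⟩
  obtain ⟨x, hx, e2, e3⟩ := h.hit0 n (fun p hp => by
    rw [← closedBall_prod_same, Real.closedBall_eq_Icc, Real.closedBall_eq_Icc] at hp
    exact s ⟨⟨by linarith [m.1, hp.1.1], by linarith [m.2, hp.1.2]⟩, hp.2⟩) e1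
  have := abs_le.1 e3
  exact ⟨x, hx, e2, by linarith [m.1], by linarith [m.2]⟩

end Box

end Vale.Agent.P354XO
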