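import Vale.Agent.P354XO.Fam

/-!
An equivariant map of cones descends to the base.
-/

set_option linter.unnecessarySeqFocus false

open scoped ContDiff
open Set Filter Topology Function Complex

namespace Vale.Agent.P354XO

open Vale.Agent.P354n (R4)
open Vale.Agent.P354XG (E6)
open Vale.Agent.P354XD (pj nq nq_pos cd_pj)

theorem dif_of_left {E : Type} [NormedAddCommGroup E] [NormedSpace ℝ E] {O : Set E} {f g : E → E}
    (o : IsOpen O) (sf : ∀ x ∈ O, ContDiffAt ℝ ∞ f x) (sg : ∀ x ∈ O, ContDiffAt ℝ ∞ g (f x))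
    (e : ∀ x ∈ O, g (f x) = x) : Dif O f := by
  refine ⟨o, sf, fun x hx => ?_, LeftInvOn.injOn e⟩
  have e1 := (((sg x hx).differentiableAt (by simp)).hasFDerivAt.comp x
    ((sf x hx).differentiableAt (by simp)).hasFDerivAt).fderiv
  have e2 : g ∘ f =ᶠ[𝓝 x] id := mem_of_superset (o.mem_nhds hx) e
  rw [e2.fderiv_eq, fderiv_id] at e1
  exact LeftInverse.injective fun w => (DFunLike.congr_fun e1 w).symm

/-- The radius, the two sections of the projection, and a global section. -/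
noncomputable def rr (y : R4) : ℝ := √(y.2.1 ^ 2 + y.2.2.1 ^ 2 + y.2.2.2 ^ 2)
noncomputable def sN (y : R4) : E6 := (y.1, rr y, (rr y + y.2.2.2 : ℝ), y.2.1 + y.2.2.1 * I)
noncomputable def sS (y : R4) : E6 := (y.1, rr y, y.2.1 - y.2.2.1 * I, (rr y - y.2.2.2 : ℝ))
noncomputable def lift (y : R4) : E6 := if 0 ≤ y.2.2.2 then sN y else sS y

variable {x : E6} {y : R4} {z : ℂ}

theorem nq_sc (z : ℂ) (x : E6) : nq (sc z x) = normSq z * nq x := by simp [nq, sc_ap, mul_add]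

theorem pj_sc (hz : z ≠ 0) (x : E6) : pj (sc z x) = pj x := by
  have n : normSq z ≠ 0 := normSq_eq_zero.not.2 hz
  have e : starRingEnd ℂ (z * x.2.2.1) * (z * x.2.2.2) =
      normSq z * (starRingEnd ℂ x.2.2.1 * x.2.2.2) := by rw [map_mul, normSq_eq_conj_mul_self]; ring
  simp only [pj, nq_sc]
  simp only [sc_ap, Prod.smul_fst, Prod.smul_snd, smul_eq_mul, e, re_ofReal_mul, im_ofReal_mul,
    normSq_mul, ← mul_sub, mul_left_comm 2 (normSq z), mul_div_mul_left _ _ n]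

theorem rr_pj (h : 0 < x.2.1) (h' : x.2.2 ≠ 0) : rr (pj x) = x.2.1 := by
  have n := (nq_pos h').ne'
  rw [rr, Real.sqrt_eq_iff_mul_self_eq (by positivity) h.le]
  simp only [pj]
  field_simp
  simp only [nq, normSq_apply, mul_re, mul_im, conj_re, conj_im]
  ring

theorem sN_pj (h : 0 < x.2.1) (h' : x.2.2 ≠ 0) :
    sN (pj x) = sc (2 * x.2.1 * starRingEnd ℂ x.2.2.1 / nq x) x := by
  have n := (nq_pos h').ne'
  rw [sN, rr_pj h h', sc_ap]
  refine Prod.ext rfl (Prod.ext rfl (Prod.ext ?_ ?_)) <;> apply Complex.ext <;>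
    simp [pj, div_ofReal_re, div_ofReal_im] <;> field_simp <;> simp [nq, normSq_apply] <;> ring

theorem sS_pj (h : 0 < x.2.1) (h' : x.2.2 ≠ 0) :
    sS (pj x) = sc (2 * x.2.1 * starRingEnd ℂ x.2.2.2 / nq x) x := by
  have n := (nq_pos h').ne'
  rw [sS, rr_pj h h', sc_ap]
  refine Prod.ext rfl (Prod.ext rfl (Prod.ext ?_ ?_)) <;> apply Complex.ext <;>
    simp [pj, div_ofReal_re, div_ofReal_im] <;> field_simp <;> simp [nq, normSq_apply] <;> ring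

theorem fac_ne (h : 0 < x.2.1) (h' : x.2.2 ≠ 0) {w : ℂ} (hw : w ≠ 0) :
    2 * x.2.1 * starRingEnd ℂ w / nq x ≠ 0 :=
  div_ne_zero (mul_ne_zero (mul_ne_zero two_ne_zero (ofReal_ne_zero.2 h.ne'))
    ((map_ne_zero _).2 hw)) (ofReal_ne_zero.2 (nq_pos h').ne')

theorem lift_pj (h : 0 < x.2.1) (h' : x.2.2 ≠ 0) : ∃ z ≠ 0, lift (pj x) = sc z x := by
  have n := nq_pos h'
  have a := normSq_nonneg x.2.2.1
  have b := normSq_nonneg x.2.2.2
  rw [lift]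
  split_ifs with k
  · refine ⟨_, fac_ne h h' fun e => ?_, sN_pj h h'⟩
    have := (div_nonneg_iff.1 (nonneg_of_mul_nonneg_right k h)).resolve_right fun k => k.2.not_gt n
    rw [nq, e, map_zero] at n
    rw [e, map_zero] at this
    linarith [this.1]
  · refine ⟨_, fac_ne h h' fun e => k ?_, sS_pj h h'⟩
    exact mul_nonneg h.le (div_nonneg (by rw [e, map_zero, sub_zero]; exact a) n.le)

theorem cd_rr (h : rr y ≠ 0) : ContDiffAt ℝ ∞ rr y :=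
  ContDiffAt.sqrt (by fun_prop) fun e => h (by rw [rr, e, Real.sqrt_zero])

theorem pj_sN (h : rr y + y.2.2.2 ≠ 0) : pj (sN y) = y := by
  have e : rr y ^ 2 = y.2.1 ^ 2 + y.2.2.1 ^ 2 + y.2.2.2 ^ 2 := Real.sq_sqrt (by positivity)
  have n : nq (sN y) = 2 * rr y * (rr y + y.2.2.2) := by
    simp [nq, sN, normSq_apply]; linear_combination -e
  have r : rr y ≠ 0 := fun k => h (by rw [k] at e ⊢; nlinarith [sq_nonneg y.2.1, sq_nonneg y.2.2.1])
  simp only [pj, n]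
  refine Prod.ext rfl (Prod.ext ?_ (Prod.ext ?_ ?_)) <;> simp [sN, normSq_apply] <;> field_simp
  linear_combination e

theorem pj_sS (h : rr y - y.2.2.2 ≠ 0) : pj (sS y) = y := by
  have e : rr y ^ 2 = y.2.1 ^ 2 + y.2.2.1 ^ 2 + y.2.2.2 ^ 2 := Real.sq_sqrt (by positivity)
  have n : nq (sS y) = 2 * rr y * (rr y - y.2.2.2) := by
    simp [nq, sS, normSq_apply]; linear_combination -e
  have r : rr y ≠ 0 := fun k => h (by rw [k] at e ⊢; nlinarith [sq_nonneg y.2.1, sq_nonneg y.2.2.1])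
  simp only [pj, n]
  refine Prod.ext rfl (Prod.ext ?_ (Prod.ext ?_ ?_)) <;> simp [sS, normSq_apply] <;> field_simp
  linear_combination -e

/-- Local smooth sections. -/
theorem ex_sec (h : 0 < x.2.1) (h' : x.2.2 ≠ 0) : ∃ s : R4 → E6, ContDiffAt ℝ ∞ s (pj x) ∧
    (∃ z ≠ 0, s (pj x) = sc z x) ∧ ∀ᶠ y in 𝓝 (pj x), pj (s y) = y := by
  have r := cd_rr ((rr_pj h h').trans_ne h.ne')
  have c : ∀ {f : R4 → ℝ}, ContDiffAt ℝ ∞ f (pj x) → ContDiffAt ℝ ∞ (fun y => (f y : ℂ)) (pj x) :=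
    fun k => ofRealCLM.contDiff.contDiffAt.comp _ k
  have c1 := c (f := fun y => y.2.1) (by fun_prop)
  have c2 := (c (f := fun y => y.2.2.1) (by fun_prop)).mul (contDiffAt_const (c := I))
  have c3 : ContDiffAt ℝ ∞ (fun y : R4 => y.2.2.2) (pj x) := by fun_prop
  by_cases k : x.2.2.1 = 0
  · have k2 : x.2.2.2 ≠ 0 := fun e => h' (Prod.ext k e)
    refine ⟨sS, contDiffAt_fst.prodMk (r.prodMk ((c1.sub c2).prodMk (c (r.sub c3)))),
      ⟨_, fac_ne h h' k2, sS_pj h h'⟩, ((r.sub c3).continuousAt.eventually_ne ?_).mono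
        fun _ => pj_sS⟩
    exact ofReal_ne_zero.1 ((congrArg (·.2.2.2) (sS_pj h h')).trans_ne
      (mul_ne_zero (fac_ne h h' k2) k2))
  · refine ⟨sN, contDiffAt_fst.prodMk (r.prodMk ((c (r.add c3)).prodMk (c1.add c2))),
      ⟨_, fac_ne h h' k, sN_pj h h'⟩, ((r.add c3).continuousAt.eventually_ne ?_).mono
        fun _ => pj_sN⟩
    exact ofReal_ne_zero.1 ((congrArg (·.2.2.1) (sN_pj h h')).trans_ne
      (mul_ne_zero (fac_ne h h' k) k))

/-- Open cones in r > 0. -/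
structure Cn (O : Set E6) : Prop where
  op : IsOpen O
  pos : ∀ x ∈ O, 0 < x.2.1 ∧ x.2.2 ≠ 0
  hom : ∀ x ∈ O, ∀ z : ℂ, z ≠ 0 → sc z x ∈ O

variable {O O' : Set E6} {a b : E6 → E6}

theorem cn_om {D : Set (ℝ × ℝ)} (o : IsOpen D) (p : ∀ q ∈ D, 0 < q.2) : Cn (Om D) :=
  ⟨om_open o, fun _ hx => ⟨p _ hx.1, hx.2⟩, fun _ hx _ => om_sc hx⟩

theorem Cn.sec (h : Cn O) (hx : x ∈ O) : ∃ s : R4 → E6, ContDiffAt ℝ ∞ s (pj x) ∧
    ∀ᶠ y in 𝓝 (pj x), s y ∈ O ∧ pj (s y) = y := by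
  obtain ⟨s, h1, ⟨z, hz, h2⟩, h3⟩ := ex_sec (h.pos x hx).1 (h.pos x hx).2
  exact ⟨s, h1, (h1.continuousAt.eventually (h.op.mem_nhds (h2 ▸ h.hom x hx z hz))).and h3⟩

theorem Cn.shadow (h : Cn O) : IsOpen (pj '' O) := isOpen_iff_mem_nhds.2 fun _ ⟨_, hx, e⟩ => by
  obtain ⟨s, -, k⟩ := h.sec hx
  exact e ▸ k.mono fun y k => ⟨_, k⟩

theorem Cn.lift_mem (h : Cn O) (hy : y ∈ pj '' O) : lift y ∈ O ∧ pj (lift y) = y := by
  obtain ⟨x, hx, rfl⟩ := hy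
  obtain ⟨z, hz, e⟩ := lift_pj (h.pos x hx).1 (h.pos x hx).2
  exact e ▸ ⟨h.hom x hx z hz, pj_sc hz x⟩

/-- A cone is the full preimage of its shadow. -/
theorem Cn.mem_of (h : Cn O) (p : 0 < x.2.1) (n : x.2.2 ≠ 0) (hx : pj x ∈ pj '' O) : x ∈ O := by
  obtain ⟨z, hz, e⟩ := lift_pj p n
  have := h.hom _ (e ▸ (h.lift_mem hx).1) _ (inv_ne_zero hz)
  rwa [inv_sc hz] at this

/-- A function of weight zero descends to the base. -/
noncomputable def dnf {V : Type} (f : E6 → V) (y : R4) : V := f (lift y)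

theorem Cn.dnf_pj {V : Type} {f : E6 → V} (h : Cn O) (e : ∀ x ∈ O, ∀ z ≠ 0, f (sc z x) = f x)
    (hx : x ∈ O) : dnf f (pj x) = f x := by
  obtain ⟨z, hz, k⟩ := lift_pj (h.pos x hx).1 (h.pos x hx).2
  rw [dnf, k, e x hx z hz]

theorem Cn.dnf_sm {V : Type} [NormedAddCommGroup V] [NormedSpace ℝ V] {f : E6 → V} (h : Cn O)
    (e : ∀ x ∈ O, ∀ z ≠ 0, f (sc z x) = f x) (sm : ∀ x ∈ O, ContDiffAt ℝ ∞ f x) (hx : x ∈ O) :
    ContDiffAt ℝ ∞ (dnf f) (pj x) := by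
  obtain ⟨s, h1, h2⟩ := h.sec hx
  refine ((sm _ h2.self_of_nhds.1).comp _ h1).congr_of_eventuallyEq (h2.mono fun y k => ?_)
  rw [comp, ← h.dnf_pj e k.1, k.2]

/-- The map of the base. -/
noncomputable def dn4 (b : E6 → E6) : R4 → R4 := dnf fun x => pj (b x)

/-- A smooth equivariant map on a cone. -/
structure Eqv (O : Set E6) (b : E6 → E6) : Prop extends Cn O where
  sm : ∀ x ∈ O, ContDiffAt ℝ ∞ b x
  eqv : ∀ x ∈ O, ∀ z : ℂ, z ≠ 0 → b (sc z x) = sc z (b x)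
  ne : ∀ x ∈ O, (b x).2.2 ≠ 0

namespace Eqv
variable (h : Eqv O b)
include h

theorem inv0 : ∀ x ∈ O, ∀ z ≠ 0, pj (b (sc z x)) = pj (b x) := fun x hx z hz => by
  rw [h.eqv x hx z hz, pj_sc hz]

theorem pj_dn (hx : x ∈ O) : dn4 b (pj x) = pj (b x) := h.dnf_pj h.inv0 hx

theorem sm_dn (hx : x ∈ O) : ContDiffAt ℝ ∞ (dn4 b) (pj x) :=
  h.dnf_sm h.inv0 (fun x hx => (cd_pj (h.ne x hx)).comp x (h.sm x hx)) hx

theorem im_dn : dn4 b '' (pj '' O) = pj '' (b '' O) := by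
  rw [image_image, image_image]
  exact image_congr fun _ => h.pj_dn

theorem left_dn (h' : Eqv O' a) (m : MapsTo b O O') (e : ∀ x ∈ O, a (b x) = x) :
    ∀ y ∈ pj '' O, dn4 a (dn4 b y) = y := by
  rintro _ ⟨x, hx, rfl⟩
  rw [h.pj_dn hx, h'.pj_dn (m hx), e x hx]

theorem dif_dn (h' : Eqv O' a) (m : MapsTo b O O') (e : ∀ x ∈ O, a (b x) = x) :
    Dif (pj '' O) (dn4 b) :=
  dif_of_left h.shadow (fun _ ⟨_, hx, k⟩ => k ▸ h.sm_dn hx)
    (fun _ ⟨_, hx, k⟩ => by rw [← k, h.pj_dn hx]; exact h'.sm_dn (m hx)) (h.left_dn h' m e)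

theorem cn_im (d : Dif O b) (p : ∀ x ∈ O, 0 < (b x).2.1) : Cn (b '' O) :=
  ⟨d.op', fun _ ⟨x, hx, e⟩ => e ▸ ⟨p x hx, h.ne x hx⟩, fun _ ⟨x, hx, e⟩ z hz =>
    ⟨_, h.hom x hx z hz, e ▸ h.eqv x hx z hz⟩⟩

/-- The inverse of an equivariant diffeomorphism. -/
theorem symm (d : Dif O b) (p : ∀ x ∈ O, 0 < (b x).2.1) : Eqv (b '' O) (invFunOn b O) :=
  ⟨h.cn_im d p, fun _ => d.sm_inv, fun _ ⟨x, hx, e⟩ z hz => by
    rw [← e, ← h.eqv x hx z hz, d.left hx, d.left (h.hom x hx z hz)],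
    fun _ hy => (h.pos _ (Dif.mem hy)).2⟩

theorem mono (c : Cn O') (s : O' ⊆ O) : Eqv O' b :=
  ⟨c, fun x hx => h.sm x (s hx), fun x hx => h.eqv x (s hx), fun x hx => h.ne x (s hx)⟩

/-- Both maps of the base are diffeomorphisms. -/
theorem dif4 (d : Dif O b) (p : ∀ x ∈ O, 0 < (b x).2.1) : Dif (pj '' O) (dn4 b) :=
  h.dif_dn (h.symm d p) (mapsTo_image _ _) fun _ => d.left

theorem dif4' (d : Dif O b) (p : ∀ x ∈ O, 0 < (b x).2.1) :
    Dif (pj '' (b '' O)) (dn4 (invFunOn b O)) :=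
  (h.symm d p).dif_dn h (fun _ => Dif.mem) fun _ => Dif.right

end Eqv

theorem Box.eqv' {D : Set (ℝ × ℝ)} {l c e : ℝ} (h : Box D a l c e) (p : ∀ q ∈ D, 0 < q.2) :
    Eqv (Om D) a := ⟨cn_om h.op p, h.sm, h.eqv, fun _ => h.xi_ne⟩

theorem Box.r_pos {D : Set (ℝ × ℝ)} {l c e : ℝ} (h : Box D a l c e) (p : ∀ q ∈ D, e < q.2) :
    ∀ x ∈ Om D, 0 < (a x).2.1 := fun x hx => by
  linarith [(abs_le.1 (h.r' hx)).1, p _ hx.1]

end Vale.Agent.P354XO
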