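import Vale.Agent.P354XO.Tame

/-!
Injective local diffeomorphisms: the inverse, the image, composition, change of variables, and the
sections on the rings of germs.
-/

open scoped ContDiff ENNReal
open Set Filter Topology Function Metric MeasureTheory

namespace Vale.Agent.P354XO

open Vale.Agent.P354XG hiding Mp rep_sum

variable {E : Type} [NormedAddCommGroup E] [NormedSpace ℝ E]

/-- a is an injective local diffeomorphism on the open set O. -/
structure Dif (O : Set E) (a : E → E) : Prop where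
  op : IsOpen O
  sm : ∀ x ∈ O, ContDiffAt ℝ ∞ a x
  fd : ∀ x ∈ O, Injective (fderiv ℝ a x)
  inj : InjOn a O

variable {O O' U : Set E} {a a' : E → E} {x y : E}

theorem inj_of_low {A : E →L[ℝ] E} {c : ℝ} (hc : 0 < c) (h : ∀ w, c * ‖w‖ ≤ ‖A w‖) :
    Injective A := (injective_iff_map_eq_zero A).2 fun w e => by
  have := h w
  rw [e, norm_zero] at this
  exact norm_le_zero_iff.1 (nonpos_of_mul_nonpos_right this hc)

namespace Dif
variable (h : Dif O a)
include h

theorem left (hx : x ∈ O) : invFunOn a O (a x) = x := h.inj.leftInvOn_invFunOn hx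

omit h in
theorem right (hy : y ∈ a '' O) : a (invFunOn a O y) = y := invFunOn_eq hy

omit h in
theorem mem (hy : y ∈ a '' O) : invFunOn a O y ∈ O := invFunOn_mem hy

theorem mem' (hU : U ⊆ O) (hy : y ∈ a '' U) : invFunOn a O y ∈ U := by
  obtain ⟨x, hx, rfl⟩ := hy
  rwa [h.left (hU hx)]

theorem diff (hx : x ∈ O) : HasFDerivAt a (fderiv ℝ a x) x :=
  ((h.sm x hx).differentiableAt (by simp)).hasFDerivAt

theorem mono (hU : IsOpen U) (s : U ⊆ O) : Dif U a :=
  ⟨hU, fun x hx => h.sm x (s hx), fun x hx => h.fd x (s hx), h.inj.mono s⟩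

theorem congr (e : EqOn a' a O) : Dif O a' := by
  have k : ∀ x ∈ O, a' =ᶠ[𝓝 x] a := fun x hx => mem_of_superset (h.op.mem_nhds hx) e
  exact ⟨h.op, fun x hx => (h.sm x hx).congr_of_eventuallyEq (k x hx),
    fun x hx => (k x hx).fderiv_eq (𝕜 := ℝ) ▸ h.fd x hx, h.inj.congr e.symm⟩

theorem comp (h' : Dif O' a') (m : MapsTo a O O') : Dif O (a' ∘ a) :=
  ⟨h.op, fun x hx => (h'.sm _ (m hx)).comp x (h.sm x hx), fun x hx => by
    rw [((h'.diff (m hx)).comp x (h.diff hx)).fderiv]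
    exact (h'.fd _ (m hx)).comp (h.fd x hx), h'.inj.comp h.inj m⟩

variable [FiniteDimensional ℝ E]

theorem key (hx : x ∈ O) : map a (𝓝 x) = 𝓝 (a x) ∧ ContDiffAt ℝ ∞ (invFunOn a O) (a x) := by
  have := FiniteDimensional.complete ℝ E
  let A : E ≃L[ℝ] E := ContinuousLinearEquiv.ofBijective (fderiv ℝ a x)
    (LinearMap.ker_eq_bot.2 (h.fd x hx)) (LinearMap.range_eq_top.2
      (LinearMap.injective_iff_surjective.1 (h.fd x hx)))
  have d : HasFDerivAt a (A : E →L[ℝ] E) x := h.diff hx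
  have s := (h.sm x hx).hasStrictFDerivAt' d (by simp)
  refine ⟨s.map_nhds_eq_of_equiv,
    ((h.sm x hx).to_localInverse d (by simp)).congr_of_eventuallyEq ?_⟩
  rw [← s.map_nhds_eq_of_equiv, EventuallyEq, eventually_map]
  filter_upwards [h.op.mem_nhds hx, s.eventually_left_inverse] with z hz e
  exact (h.left hz).trans e.symm

theorem open_im (hU : IsOpen U) (s : U ⊆ O) : IsOpen (a '' U) :=
  isOpen_iff_mem_nhds.2 fun _ ⟨_, hx, e⟩ =>
    e ▸ (h.key (s hx)).1 ▸ image_mem_map (hU.mem_nhds hx)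

theorem op' : IsOpen (a '' O) := h.open_im h.op Subset.rfl

theorem sm_inv (hy : y ∈ a '' O) : ContDiffAt ℝ ∞ (invFunOn a O) y := by
  obtain ⟨x, hx, rfl⟩ := hy
  exact (h.key hx).2

theorem fd_inv (hy : y ∈ a '' O) (w : E) :
    fderiv ℝ a (invFunOn a O y) (fderiv ℝ (invFunOn a O) y w) = w := by
  have e := ((h.diff (mem hy)).comp y
    ((h.sm_inv hy).differentiableAt (by simp)).hasFDerivAt).fderiv
  have e2 : a ∘ invFunOn a O =ᶠ[𝓝 y] id := mem_of_superset (h.op'.mem_nhds hy) fun _ => right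
  rw [e2.fderiv_eq, fderiv_id] at e
  exact (DFunLike.congr_fun e w).symm

theorem symm : Dif (a '' O) (invFunOn a O) :=
  ⟨h.op', fun _ => h.sm_inv, fun _ hy => LeftInverse.injective (h.fd_inv hy),
    fun y hy z hz e => by rw [← right hy, e, right hz]⟩

theorem im_inv (s : U ⊆ O) : invFunOn a O '' (a '' U) = U :=
  (h.inj.leftInvOn_invFunOn.mono s).image_image

/-- The change of variables. -/
theorem lint [MeasurableSpace E] [BorelSpace E] (μ : Measure E) [μ.IsAddHaarMeasure]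
    (hU : MeasurableSet U) (s : U ⊆ O) (g : E → ℝ≥0∞) : ∫⁻ y in a '' U, g (invFunOn a O y) ∂μ =
      ∫⁻ x in U, ENNReal.ofReal |(fderiv ℝ a x).det| * g x ∂μ := by
  rw [lintegral_image_eq_lintegral_abs_det_fderiv_mul μ hU
    (fun x hx => (h.diff (s hx)).hasFDerivWithinAt) (h.inj.mono s)]
  exact setLIntegral_congr_fun hU fun x hx => by simp only [h.left (s hx)]

end Dif

/-- The points near a x0 are hit. -/
theorem hit [FiniteDimensional ℝ E] {L L' : E →L[ℝ] E} {N c d : ℝ} (hN : 0 ≤ N) (hc : 0 ≤ c)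
    (hd : 0 ≤ d) (r : ∀ y, L (L' y) = y) (b : ∀ y, ‖L' y‖ ≤ N * ‖y‖)
    (df : ∀ z ∈ closedBall x d, DifferentiableAt ℝ a z)
    (e : ∀ z ∈ closedBall x d, ‖fderiv ℝ a z - L‖ ≤ c) (hy : ‖y - a x‖ ≤ (N⁻¹ - c) * d) :
    y ∈ a '' closedBall x d := by
  have := FiniteDimensional.complete ℝ E
  have k : ApproximatesLinearOn a L (closedBall x d) ⟨c, hc⟩ := fun _ h1 _ h2 =>
    (convex_closedBall x d).norm_image_sub_le_of_norm_fderiv_le' df e h2 h1
  exact k.surjOn_closedBall_of_nonlinearRightInverse ⟨L', ⟨N, hN⟩, b, r⟩ hd Subset.rfl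
    (mem_closedBall_iff_norm.2 hy)

/-- The determinants of a compact set of injective maps. -/
theorem det_bd [FiniteDimensional ℝ E] {S : Set (E →L[ℝ] E)} (hS : IsCompact S)
    (i : ∀ A ∈ S, Injective A) : ∃ C > 0, ∀ A ∈ S, C⁻¹ ≤ |A.det| ∧ |A.det| ≤ C := by
  have c : ContinuousOn (fun A : E →L[ℝ] E => |A.det|) S :=
    ContinuousLinearMap.continuous_det.abs.continuousOn
  have n : ∀ A ∈ S, 0 < |A.det| := fun A hA => abs_pos.2 fun e =>
    (LinearMap.bot_lt_ker_of_det_eq_zero e).ne' (LinearMap.ker_eq_bot.2 (i A hA))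
  obtain ⟨C, hC⟩ := hS.exists_bound_of_continuousOn c
  obtain ⟨C', hC'⟩ := hS.exists_bound_of_continuousOn (c.inv₀ fun A hA => (n A hA).ne')
  refine ⟨max 1 (max C C'), by positivity, fun A hA => ⟨?_, ?_⟩⟩
  · refine inv_le_of_inv_le₀ (n A hA) ?_
    exact ((le_abs_self _).trans (hC' A hA)).trans ((le_max_right _ _).trans (le_max_right _ _))
  · exact ((le_abs_self _).trans (hC A hA)).trans ((le_max_left _ _).trans (le_max_right _ _))

section fam
variable {J : Type} {F : Filter J} {O K K' : J → Set E} {a : J × E → E}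

/-- The family of the inverses. -/
noncomputable def iv (O : J → Set E) (a : J × E → E) (p : J × E) : E :=
  invFunOn (fun x => a (p.1, x)) (O p.1) p.2

variable (h : ∀ᶠ j in F, Dif (O j) fun x => a (j, x)) (hK : ∀ᶠ j in F, K j ⊆ O j)
  (hK' : ∀ᶠ j in F, K' j ⊆ (fun x => a (j, x)) '' K j)
include h hK hK'

theorem iv_maps : ∀ᶠ j in F, ∀ x ∈ K' j, iv O a (j, x) ∈ K j := by
  filter_upwards [h, hK, hK'] with j h1 h2 h3 x hx using h1.mem' h2 (h3 hx)

/-- The section on the rings of germs. -/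
theorem sec_iv [FiniteDimensional ℝ E] : Sec (nb F K') (nb F K) a (iv O a) := by
  have e : ∀ᶠ j in F, ∀ x ∈ K' j, ∀ᶠ y in 𝓝 x, y ∈ (fun x => a (j, x)) '' O j := by
    filter_upwards [h, hK, hK'] with j h1 h2 h3 x hx using
      h1.op'.mem_nhds (image_mono h2 (h3 hx))
  refine sec_of ⟨ev_nb.2 ?_, iv_maps h hK hK'⟩ (ev_nb.2 ?_) (ev_nb.2 ?_)
  · filter_upwards [h, e] with j h1 h2 x hx using (h2 x hx).mono fun _ => h1.sm_inv
  · filter_upwards [h, hK] with j h1 h2 x hx using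
      (h1.op.eventually_mem (h2 hx)).mono h1.sm
  · filter_upwards [e] with j h2 x hx using (h2 x hx).mono fun _ => Dif.right

omit hK' in
/-- The section in the other direction. -/
theorem sec_vi [FiniteDimensional ℝ E] (m : ∀ᶠ j in F, ∀ x ∈ K j, a (j, x) ∈ K' j)
    (s : ∀ᶠ j in F, K' j ⊆ (fun x => a (j, x)) '' O j) : Sec (nb F K) (nb F K') (iv O a) a := by
  refine sec_of ⟨ev_nb.2 ?_, m⟩ (ev_nb.2 ?_) (ev_nb.2 ?_)
  · filter_upwards [h, hK] with j h1 h2 x hx using (h1.op.eventually_mem (h2 hx)).mono h1.sm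
  · filter_upwards [h, s] with j h1 h2 x hx using
      (h1.op'.eventually_mem (h2 hx)).mono fun _ => h1.sm_inv
  · filter_upwards [h, hK] with j h1 h2 x hx using
      (h1.op.eventually_mem (h2 hx)).mono fun _ => h1.left

end fam

end Vale.Agent.P354XO
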