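import Vale.Agent.P354XO.Alg
import Vale.Agent.P354XG.Ring

/-!
Pull back of smooth germs along a smooth map, and push forward of vector fields along a map with
a smooth right inverse.
-/

open scoped ContDiff
open Set Filter Topology Module

namespace Vale.Agent.P354XO

open Vale.Agent.P354XG

variable {J E F : Type} [NormedAddCommGroup E] [NormedSpace ℝ E] [NormedAddCommGroup F]
  [NormedSpace ℝ F] {G : Filter (J × E)} [Loc G]

theorem rep_sum {κ : Type*} (s : Finset κ) (u : κ → Sm G) :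
    rep (∑ i ∈ s, u i) =ᶠ[G] fun p => ∑ i ∈ s, rep (u i) p := by
  classical
  induction s using Finset.induction_on with
  | empty => simpa using rep_zero
  | insert i s hi ih =>
    simp only [Finset.sum_insert hi]
    filter_upwards [rep_add (u i) (∑ i ∈ s, u i), ih] with p h1 h2
    rw [h1, Pi.add_apply, h2]

omit [Loc G] in
theorem sm_lin (ψ : E →L[ℝ] ℂ) : SmF G fun p => ψ p.2 :=
  Eventually.of_forall fun _ => ψ.contDiff.contDiffAt

/-- A linear function of the point. -/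
noncomputable def lin (ψ : E →L[ℝ] ℂ) : Sm G := fn ψ (sm_lin ψ)

theorem pd_lin (v : E) (ψ : E →L[ℝ] ℂ) : pd v (lin ψ : Sm G) = algebraMap ℂ (Sm G) (ψ v) :=
  pd_clm v ψ

theorem lin_add (ψ χ : E →L[ℝ] ℂ) : (lin (ψ + χ) : Sm G) = lin ψ + lin χ := rfl

theorem lin_smul (z : ℂ) (ψ : E →L[ℝ] ℂ) :
    (lin (z • ψ) : Sm G) = algebraMap ℂ (Sm G) z * lin ψ := rfl

theorem cj_lin (ψ : E →L[ℝ] ℂ) :
    cj (lin ψ : Sm G) = lin ((Complex.conjCLE : ℂ →L[ℝ] ℂ).comp ψ) := cj_mk _ (sm_lin ψ)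

/-- A smooth map from the germs along G2 to the germs along G. -/
structure Mp (G2 : Filter (J × F)) (G : Filter (J × E)) (b : J × F → E) : Prop where
  tend : Tendsto (fun p => (p.1, b p)) G2 G
  sm : ∀ᶠ p in G2, ContDiffAt ℝ ∞ (fun y => b (p.1, y)) p.2

section pb
variable {G2 : Filter (J × F)} [Loc G2] {b : J × F → E} (h : Mp G2 G b)
include h

omit [Loc G] [Loc G2] in
theorem Mp.smF {f : J × E → ℂ} (hf : SmF G f) : SmF G2 fun p => f (p.1, b p) :=
  ((h.tend.eventually hf).and h.sm).mono fun p k =>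
    ContDiffAt.comp (g := sl f p.1) (f := fun y => b (p.1, y)) p.2 k.1 k.2

noncomputable def Mp.pb0 (u : Sm G) : Sm G2 :=
  P354XG.mk (fun p => rep u (p.1, b p)) (h.smF (rep_sm u))

theorem Mp.pb0_mk (f : J × E → ℂ) (hf : SmF G f) :
    h.pb0 (P354XG.mk f hf) = P354XG.mk (fun p => f (p.1, b p)) (h.smF hf) :=
  mk_eq.2 (h.tend.eventually (rep_mk f hf))

/-- The pull back. -/
noncomputable def Mp.pb : Sm G →ₐ[ℂ] Sm G2 where
  toFun := h.pb0
  map_one' := h.pb0_mk _ (smF_const fun _ => 1)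
  map_zero' := h.pb0_mk _ (smF_const fun _ => 0)
  map_add' u v := by
    obtain ⟨f, hf, rfl⟩ := mk_surj u
    obtain ⟨g, hg, rfl⟩ := mk_surj v
    simp only [mk_add, h.pb0_mk]
    rfl
  map_mul' u v := by
    obtain ⟨f, hf, rfl⟩ := mk_surj u
    obtain ⟨g, hg, rfl⟩ := mk_surj v
    simp only [mk_mul, h.pb0_mk]
    rfl
  commutes' z := h.pb0_mk _ (smF_const fun _ => z)

theorem Mp.pb_mk (f : J × E → ℂ) (hf : SmF G f) :
    h.pb (P354XG.mk f hf) = P354XG.mk (fun p => f (p.1, b p)) (h.smF hf) := h.pb0_mk f hf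

theorem Mp.rep_pb (u : Sm G) : rep (h.pb u) =ᶠ[G2] fun p => rep u (p.1, b p) :=
  rep_mk _ (h.smF (rep_sm u))

theorem Mp.pb_cj (u : Sm G) : h.pb (cj u) = cj (h.pb u) := by
  obtain ⟨f, hf, rfl⟩ := mk_surj u
  simp only [cj_mk, h.pb_mk]

theorem Mp.pb_cst (c : J → ℂ) : h.pb (cst c) = cst c := h.pb_mk _ (smF_const c)

end pb

variable [FiniteDimensional ℝ E]

/-- The index set of the coordinates. -/
abbrev Ix (E : Type) [NormedAddCommGroup E] [NormedSpace ℝ E] : Type := Fin (finrank ℝ E)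

/-- The coordinates of a fixed basis. -/
noncomputable def crd (k : Ix E) : E →L[ℝ] ℂ :=
  Complex.ofRealCLM.comp (LinearMap.toContinuousLinearMap ((finBasis ℝ E).coord k))

theorem sum_crd (L : E →L[ℝ] ℂ) (v : E) : ∑ k, crd k v * L (finBasis ℝ E k) = L v := by
  conv_rhs => rw [← (finBasis ℝ E).sum_repr v, map_sum]
  simp [crd]

variable (G) in
/-- The coordinates on the ring of germs. -/
noncomputable def co : Co (Sm G) (Ix E) := ⟨fun k => lin (crd k), fun k => pd (finBasis ℝ E k)⟩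

theorem co_is : (co G).Is where
  dx k l := by
    refine (pd_lin _ _).trans ?_
    by_cases e : k = l <;> simp [crd, e]
  comm _ _ := pd_comm _ _

/-- Vector fields on the ring of germs. -/
abbrev VF (D : Der (Sm G)) : Prop := (co G).VF D

theorem Mp.chain {G2 : Filter (J × F)} [Loc G2] {b : J × F → E} (h : Mp G2 G b) (v : F)
    (u : Sm G) : pd v (h.pb u) = ∑ l, pd v (h.pb ((co G).x l)) * h.pb ((co G).d l u) := by
  obtain ⟨f, hf, rfl⟩ := mk_surj u
  refine ext_rep ?_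
  have e : ∀ l, pd v (h.pb ((co G).x l)) * h.pb ((co G).d l (P354XG.mk f hf)) =
      P354XG.mk (pdF v (fun p => crd l (b p)) * fun p => pdF (finBasis ℝ E l) f (p.1, b p))
        (((h.smF (sm_lin (crd l))).pd v).mul (h.smF (hf.pd _))) := fun l => by
    exact congrArg₂ (· * ·) ((congrArg (pd v) (h.pb_mk _ (sm_lin _))).trans (pd_mk v _ _))
      ((congrArg h.pb (pd_mk _ f hf)).trans (h.pb_mk _ _))
  simp only [e, h.pb_mk, pd_mk]
  refine (rep_mk _ _).trans (EventuallyEq.trans ?_ (rep_sum _ _).symm)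
  filter_upwards [h.sm, h.tend.eventually hf.diff, eventually_all.2 fun l => rep_mk _
    (((h.smF (sm_lin (crd l))).pd v).mul (h.smF (hf.pd (finBasis ℝ E l))))] with p h1 h2 h3
  have h4 := (h1.differentiableAt (by simp)).hasFDerivAt
  have e1 : fderiv ℝ (sl (fun p => f (p.1, b p)) p.1) p.2 = _ :=
    (HasFDerivAt.comp (g := sl f p.1) p.2 h2.hasFDerivAt h4).fderiv
  have e2 : ∀ l, fderiv ℝ (sl (fun p => crd l (b p)) p.1) p.2 = _ := fun l =>
    ((crd l).hasFDerivAt.comp p.2 h4).fderiv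
  refine Eq.trans ?_ (Finset.sum_congr rfl fun l _ => h3 l).symm
  simp only [Pi.mul_apply, pdF, e1, e2, ContinuousLinearMap.comp_apply]
  exact (sum_crd (fderiv ℝ (sl f p.1) (b p)) _).symm

theorem vf_pd (v : E) : VF (pd v : Der (Sm G)) := by
  refine ⟨fun k => algebraMap ℂ (Sm G) (crd k v), fun u => ?_⟩
  have h : Mp G G fun p => p.2 := ⟨tendsto_id, Eventually.of_forall fun _ => contDiffAt_id⟩
  have e : ∀ u, h.pb u = u := fun u => ext_rep (h.rep_pb u)
  have := h.chain v u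
  simp only [e] at this
  exact this.trans (Finset.sum_congr rfl fun k _ => congrArg (· * _) (pd_lin _ _))

theorem VF.ext {D D' : Der (Sm G)} (h : VF D) (h' : VF D') (e : ∀ ψ, D (lin ψ) = D' (lin ψ)) :
    D = D' := Co.VF.ext co_is h h' fun _ => e _

theorem VF.br {D D' : Der (Sm G)} (h : VF D) (h' : VF D') : VF ⁅D, D'⁆ := Co.VF.br co_is h h'

/-- The value of a vector field on a germ. -/
theorem VF.rep {D : Der (Sm G)} (h : VF D) (u : Sm G) : rep (D u) =ᶠ[G] fun p =>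
    ∑ k, rep (D (lin (crd k))) p * fderiv ℝ (sl (rep u) p.1) p.2 (finBasis ℝ E k) := by
  rw [Co.VF.eq co_is h u]
  filter_upwards [rep_sum Finset.univ fun k => D ((co G).x k) * (co G).d k u,
    eventually_all.2 fun k => rep_mul (D ((co G).x k)) ((co G).d k u),
    eventually_all.2 fun k => rep_pd (finBasis ℝ E k) u] with p h1 h2 h3
  rw [h1]
  exact Finset.sum_congr rfl fun k _ => (h2 k).trans (congrArg (_ * ·) (h3 k))

/-- b is a smooth right inverse of the smooth map a. -/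
structure Sec (G2 G : Filter (J × E)) (a b : J × E → E) : Prop extends Mp G2 G b where
  sa : ∀ᶠ p in G, ContDiffAt ℝ ∞ (fun y => a (p.1, y)) p.2
  inv : ∀ᶠ p in G2, a (p.1, b p) = p.2

namespace Sec
variable {G2 : Filter (J × E)} [Loc G2] {a b : J × E → E} (h : Sec G2 G a b)

/-- The components of a. -/
noncomputable def cmp (ψ : E →L[ℝ] ℂ) : Sm G :=
  P354XG.mk (fun p => ψ (a p)) (h.sa.mono fun p k => ψ.contDiff.contDiffAt.comp p.2 k)

omit [FiniteDimensional ℝ E] in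
theorem pb_cmp (ψ : E →L[ℝ] ℂ) : h.pb (h.cmp ψ) = lin ψ :=
  (h.pb_mk _ _).trans ((mk_eq (hg := sm_lin ψ)).2 (h.inv.mono fun _ k => congrArg ψ k))

omit [FiniteDimensional ℝ E] [Loc G2] in
theorem cj_cmp (ψ : E →L[ℝ] ℂ) :
    cj (h.cmp ψ) = h.cmp ((Complex.conjCLE : ℂ →L[ℝ] ℂ).comp ψ) := cj_mk _ _

theorem psh : Psh (co G) (co G2) h.pb fun k => h.cmp (crd k) :=
  ⟨co_is, co_is, fun _ => h.chain _, fun _ => h.pb_cmp _⟩

theorem cjs : Cj (co G2) h.pb (fun k => h.cmp (crd k)) cj cj :=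
  ⟨h.pb_cj, fun _ => (h.cj_cmp _).trans (congrArg h.cmp (ContinuousLinearMap.ext fun _ =>
    Complex.conj_ofReal _)), fun _ => cj_pd _, cj_cj⟩

/-- The push forward of a field. -/
noncomputable def push (D : Der (Sm G)) : Der (Sm G2) :=
  P354XO.push (co G2) h.pb (fun k => h.cmp (crd k)) D

variable {D : Der (Sm G)}

theorem vf (D : Der (Sm G)) : VF (h.push D) := vf_push D

theorem map (hD : VF D) (u : Sm G) : h.pb (D u) = h.push D (h.pb u) := h.psh.map hD u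

theorem push_lin (hD : VF D) (ψ : E →L[ℝ] ℂ) : h.push D (lin ψ) = h.pb (D (h.cmp ψ)) := by
  rw [h.map hD, h.pb_cmp]

theorem push_eq {X : Der (Sm G2)} (hX : VF X) (e : ∀ ψ, h.pb (D (h.cmp ψ)) = X (lin ψ)) :
    h.push D = X := h.psh.push_eq hX fun _ => e _

/-- The push forward of the GHP calculus. -/
noncomputable def ghp (S : GHP (Sm G)) : GHP (Sm G2) :=
  gpush (co G2) h.pb (fun k => h.cmp (crd k)) cj S

variable {S : GHP (Sm G)}

theorem ghp_c : (h.ghp S).c = cj := rfl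

theorem gv : GV (co G2) (h.ghp S) := gv_gpush

theorem hom (v : GV (co G) S) (hc : S.c = cj) : GHP.Hom S (h.ghp S) h.pb :=
  h.psh.hom v (hc ▸ h.cjs)

theorem is (v : GV (co G) S) (hc : S.c = cj) (i : S.Is) : (h.ghp S).Is :=
  h.psh.is v (hc ▸ h.cjs) i

end Sec

/-- The coordinates of the chart. -/
noncomputable def lt : E6 →L[ℝ] ℂ := Complex.ofRealCLM.comp (.fst ℝ _ _)
noncomputable def lr : E6 →L[ℝ] ℂ :=
  Complex.ofRealCLM.comp ((ContinuousLinearMap.fst ℝ _ _).comp (.snd ℝ _ _))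
/-- The spinor part. -/
noncomputable def lx : E6 →L[ℝ] ℂ × ℂ := (ContinuousLinearMap.snd ℝ _ _).comp (.snd ℝ _ _)
noncomputable def l1 : E6 →L[ℝ] ℂ := (ContinuousLinearMap.fst ℝ _ _).comp lx
noncomputable def l2 : E6 →L[ℝ] ℂ := (ContinuousLinearMap.snd ℝ _ _).comp lx

theorem lin_e6 (ψ : E6 →L[ℝ] ℂ) : ∃ z : Fin 6 → ℂ, ψ = z 0 • lt + z 1 • lr + z 2 • l1 +
    z 3 • (Complex.conjCLE : ℂ →L[ℝ] ℂ).comp l1 + z 4 • l2 +
    z 5 • (Complex.conjCLE : ℂ →L[ℝ] ℂ).comp l2 := by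
  let u := fun v : E6 => ψ v / 2
  refine ⟨![ψ (1, 0), ψ (0, 1, 0), u (0, 0, 1, 0) - .I * u (0, 0, .I, 0),
    u (0, 0, 1, 0) + .I * u (0, 0, .I, 0), u (0, 0, 0, 1) - .I * u (0, 0, 0, .I),
    u (0, 0, 0, 1) + .I * u (0, 0, 0, .I)], ContinuousLinearMap.ext fun ⟨t, r, x, y⟩ => ?_⟩
  have e : ((t, r, x, y) : E6) = t • (1, 0) + r • (0, 1, 0) + x.re • (0, 0, 1, 0) +
      x.im • (0, 0, .I, 0) + y.re • (0, 0, 0, 1) + y.im • (0, 0, 0, .I) := by
    ext <;> simp
  conv_lhs => rw [e]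
  have c : ∀ z : ℂ, starRingEnd ℂ z = z.re - z.im * .I := fun z => by
    apply Complex.ext <;> simp
  simp only [map_add, map_smul, Complex.real_smul]
  simp [lt, lr, l1, l2, lx, u, c]
  linear_combination (ψ (0, 0, 1, 0) / 2 - .I * ψ (0, 0, .I, 0) / 2) * Complex.re_add_im x +
    (ψ (0, 0, 0, 1) / 2 - .I * ψ (0, 0, 0, .I) / 2) * Complex.re_add_im y +
    (x.im * ψ (0, 0, .I, 0) + y.im * ψ (0, 0, 0, .I)) * Complex.I_mul_I

/-- Two complex linear maps of linear functions agree if they agree on the six coordinates. -/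
theorem ext_e6 {M : Type*} [AddCommGroup M] [Module ℂ M] {P Q : (E6 →L[ℝ] ℂ) → M}
    (hP : IsLinearMap ℂ P) (hQ : IsLinearMap ℂ Q) (e0 : P lt = Q lt) (e1 : P lr = Q lr)
    (e2 : P l1 = Q l1) (e3 : P ((Complex.conjCLE : ℂ →L[ℝ] ℂ).comp l1) =
      Q ((Complex.conjCLE : ℂ →L[ℝ] ℂ).comp l1)) (e4 : P l2 = Q l2)
    (e5 : P ((Complex.conjCLE : ℂ →L[ℝ] ℂ).comp l2) = Q ((Complex.conjCLE : ℂ →L[ℝ] ℂ).comp l2))
    (ψ : E6 →L[ℝ] ℂ) : P ψ = Q ψ := by
  obtain ⟨z, rfl⟩ := lin_e6 ψ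
  simp only [hP.map_add, hQ.map_add, hP.map_smul, hQ.map_smul, e0, e1, e2, e3, e4, e5]

/-- The push forward on the chart is determined by the six coordinates. -/
theorem Sec.push_e6 {G G2 : Filter (J × E6)} [Loc G] [Loc G2] {a b : J × E6 → E6}
    (h : Sec G2 G a b) {D : Der (Sm G)} {X : Der (Sm G2)} (hX : VF X)
    (e0 : h.pb (D (h.cmp lt)) = X (lin lt)) (e1 : h.pb (D (h.cmp lr)) = X (lin lr))
    (e2 : h.pb (D (h.cmp l1)) = X (lin l1)) (e3 : h.pb (D (cj (h.cmp l1))) = X (cj (lin l1)))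
    (e4 : h.pb (D (h.cmp l2)) = X (lin l2)) (e5 : h.pb (D (cj (h.cmp l2))) = X (cj (lin l2))) :
    h.push D = X := by
  rw [h.cj_cmp, cj_lin] at e3 e5
  refine h.push_eq hX (ext_e6 ⟨fun ψ χ => ?_, fun z ψ => ?_⟩ ⟨fun ψ χ => ?_, fun z ψ => ?_⟩
    e0 e1 e2 e3 e4 e5)
  · rw [← map_add, ← map_add]; rfl
  · rw [← map_smul, ← D.map_smul]; rfl
  · rw [← map_add]; rfl
  · rw [← X.map_smul]; rfl

end Vale.Agent.P354XO
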