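import Vale.Agent.P354XO.Push
import Vale.Agent.P354XG.Pull

/-!
The inverse of a map with bounded jets and a lower bound on the derivative has bounded jets; the
pull back and the push forward keep the classes Dom.
-/

open scoped ContDiff
open Set Filter Topology Module

namespace Vale.Agent.P354XO

open Vale.Agent.P354XG hiding Mp rep_sum

variable {J E : Type} [NormedAddCommGroup E] [NormedSpace ℝ E] {F : Filter J} {K K' : J → Set E}
  {a b : J × E → E} {μ : ℕ → J → ℝ}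

theorem d_inv {B ι : Type*} [CommRing B] [Algebra ℂ B] [Fintype ι] (D : Der B) {x y c : ι → B}
    {A : ι → ι → B} (e1 : ∀ k, D (∑ l, x l * A l k) = 0) (e2 : ∀ l, ∑ k, y k * A l k = c l)
    (e3 : ∀ l, D (c l) = 0) : D (∑ l, x l * c l) = -∑ k, ∑ l, y k * x l * D (A l k) := by
  have e4 : ∀ k, ∑ l, x l * D (A l k) = -∑ l, A l k * D (x l) := fun k => by
    have := e1 k
    simp only [map_sum, D_mul, Finset.sum_add_distrib] at this
    exact eq_neg_of_add_eq_zero_left this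
  simp only [mul_assoc, ← Finset.mul_sum, e4, mul_neg, Finset.sum_neg_distrib, neg_neg]
  simp only [Finset.mul_sum]
  rw [Finset.sum_comm, map_sum]
  refine Finset.sum_congr rfl fun l _ => ?_
  rw [D_mul, e3, mul_zero, zero_add, ← e2, Finset.sum_mul]
  exact Finset.sum_congr rfl fun _ _ => by ring

theorem sec_of (m : P354XG.Mp F K' K b)
    (sa : ∀ᶠ p in nb F K, ContDiffAt ℝ ∞ (fun y => a (p.1, y)) p.2)
    (inv : ∀ᶠ p in nb F K', a (p.1, b p) = p.2) : Sec (nb F K') (nb F K) a b :=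
  ⟨⟨fun _ hs => m.ev hs, m.sm⟩, sa, inv⟩

/-- The derivative of a is bounded below on the sets K j. -/
def LowD (F : Filter J) (K : J → Set E) (a : J × E → E) : Prop :=
  ∃ c > 0, ∀ᶠ j in F, ∀ x ∈ K j, ∀ w, c * ‖w‖ ≤ ‖fderiv ℝ (fun y => a (j, y)) x w‖

namespace Sec
variable (h : Sec (nb F K') (nb F K) a b) (hm : ∀ᶠ j in F, ∀ x ∈ K' j, b (j, x) ∈ K j)

include h hm in
theorem mp : P354XG.Mp F K' K b := ⟨h.sm, hm⟩

theorem mp_pb (u : Sm (nb F K)) : (h.mp hm).pb u = h.pb u := rfl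

theorem mp_co (ψ : E →L[ℝ] ℂ) : (h.mp hm).co ψ = h.pb (lin ψ) := (h.pb_mk _ (sm_lin ψ)).symm

include h in
theorem fd_inv : ∀ᶠ p in nb F K', ∀ w, fderiv ℝ (fun y => a (p.1, y)) (b p)
    (fderiv ℝ (fun y => b (p.1, y)) p.2 w) = w := by
  filter_upwards [h.sm, h.tend.eventually h.sa, Loc.ev _ h.inv] with p h1 h2 h3 w
  have e := (HasFDerivAt.comp (g := fun y => a (p.1, y)) (f := fun y => b (p.1, y)) p.2
    (h2.differentiableAt (by simp)).hasFDerivAt
    (h1.differentiableAt (by simp)).hasFDerivAt).fderiv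
  have e2 : ((fun y => a (p.1, y)) ∘ fun y => b (p.1, y)) =ᶠ[𝓝 p.2] id := h3
  rw [e2.fderiv_eq, fderiv_id] at e
  exact (DFunLike.congr_fun e w).symm

include hm in
theorem dom0_co (lo : LowD F K a) (ψ : E →L[ℝ] ℂ) (v : E) :
    Dom0 (w1 J) (pd v (h.pb (lin ψ))) := by
  obtain ⟨c, hc, lo⟩ := lo
  refine ⟨0, ‖ψ‖ * (‖v‖ / c), by positivity, ?_⟩
  filter_upwards [lo, hm, ev_nb_on h.fd_inv, ev_nb_on ((h.mp hm).rep_pd_co ψ v)] with j h1 h2 h3
    h4 x hx
  rw [← h.mp_co hm, h4 x hx, w1, mul_one]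
  refine (ψ.le_opNorm _).trans (mul_le_mul_of_nonneg_left ?_ (norm_nonneg _))
  have := h1 _ (h2 x hx) (fderiv ℝ (fun y => b (j, y)) x v)
  rw [h3 x hx v] at this
  rwa [le_div_iff₀' hc]

variable [FiniteDimensional ℝ E]

/-- The second derivatives of the inverse. -/
theorem pd_pd (ψ : E →L[ℝ] ℂ) (v w : E) : pd w (pd v (h.pb (lin ψ))) =
    -∑ k, ∑ l, (co (nb F K')).d k (h.pb (lin ψ)) * pd v (h.pb ((co (nb F K)).x l)) *
      pd w (h.pb ((co (nb F K)).d l (h.cmp (crd k)))) := by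
  have e1 : ∀ k, ∑ l, pd v (h.pb ((co (nb F K)).x l)) * h.pb ((co (nb F K)).d l (h.cmp (crd k))) =
      algebraMap ℂ _ (crd k v) := fun k => by rw [← h.chain, h.pb_cmp, pd_lin]
  have e2 : ∀ l, ∑ k, (co (nb F K')).d k (h.pb (lin ψ)) *
      h.pb ((co (nb F K)).d l (h.cmp (crd k))) = algebraMap ℂ _ (ψ (finBasis ℝ E l)) := fun l => by
    have := h.map (vf_pd (finBasis ℝ E l)) (lin ψ)
    rw [pd_lin, AlgHom.commutes, push, P354XO.push, Co.vf_ap] at this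
    exact (Finset.sum_congr rfl fun k _ => mul_comm _ _).trans this.symm
  have e3 : pd v (h.pb (lin ψ)) =
      ∑ l, pd v (h.pb ((co (nb F K)).x l)) * algebraMap ℂ _ (ψ (finBasis ℝ E l)) := by
    rw [h.chain]
    refine Finset.sum_congr rfl fun l _ => ?_
    have : (co (nb F K)).d l (lin ψ) = algebraMap ℂ _ (ψ (finBasis ℝ E l)) := pd_lin _ _
    rw [this, AlgHom.commutes]
  rw [e3]
  exact d_inv _ (fun k => by rw [e1, D_alg]) e2 fun _ => D_alg _ _

include hm in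
/-- The jets of the inverse are bounded. -/
theorem bd_co (hb : ∀ ψ v, Bd (pd v (h.cmp ψ))) (lo : LowD F K a) (ψ : E →L[ℝ] ℂ) (v : E) :
    Bd (pd v (h.pb (lin ψ))) := by
  let S : Set (Sm (nb F K')) :=
    {s | ∃ ψ v, s = pd v (h.pb (lin ψ))} ∪ {s | ∃ u, Bd u ∧ s = h.pb u}
  have m1 : ∀ ψ v, pd v (h.pb (lin ψ)) ∈ Subring.closure (S ∪ {a | Bd a}) := fun ψ v =>
    Subring.subset_closure (Or.inl (Or.inl ⟨ψ, v, rfl⟩))
  have m2 : ∀ u v, Bd u → pd v (h.pb u) ∈ Subring.closure (S ∪ {a | Bd a}) := fun u v hu => by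
    rw [h.chain]
    exact sum_mem fun l _ => mul_mem (m1 _ v)
      (Subring.subset_closure (Or.inl (Or.inr ⟨_, hu.pd _, rfl⟩)))
  refine bd_closure S ?_ ?_ _ (m1 ψ v)
  · rintro _ (⟨ψ, v, rfl⟩ | ⟨u, hu, rfl⟩)
    · exact h.dom0_co hm lo ψ v
    · exact (h.mp hm).dom0 hu.dom0
  · rintro _ (⟨ψ, v, rfl⟩ | ⟨u, hu, rfl⟩) w
    · rw [h.pd_pd]
      exact neg_mem (sum_mem fun k _ => sum_mem fun l _ =>
        mul_mem (mul_mem (m1 _ _) (m1 _ _)) (m2 _ _ (hb _ _)))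
    · exact m2 u w hu

theorem tame (hb : ∀ ψ v, Bd (pd v (h.cmp ψ))) (lo : LowD F K a) : (h.mp hm).Tame :=
  fun ψ v => h.mp_co hm ψ ▸ h.bd_co hm hb lo ψ v

include hm in
/-- The pull back by the inverse keeps the classes Dom. -/
theorem dom (hb : ∀ ψ v, Bd (pd v (h.cmp ψ))) (lo : LowD F K a) (hμ : Wgt μ) {u : Sm (nb F K)}
    (hu : Dom μ u) : Dom μ (h.pb u) := (h.mp hm).dom (h.tame hm hb lo) hμ hu

include hm in
theorem keeps (hb : ∀ ψ v, Bd (pd v (h.cmp ψ))) (lo : LowD F K a) {D : Der (Sm (nb F K))}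
    (hD : ∀ ψ, Bd (D (h.cmp ψ))) : Keeps (h.push D) :=
  keeps_sum _ fun _ _ => (keeps_pd _).smul (h.dom hm hb lo wgt_one (hD _))

/-- The push forward agrees with X up to Dom μ if the components do. -/
theorem push_sub (hμ : Wgt μ) {D : Der (Sm (nb F K))} {X : Der (Sm (nb F K'))} (hX : VF X)
    (e : ∀ ψ, Dom μ (h.pb (D (h.cmp ψ)) - X (lin ψ))) {u : Sm (nb F K')}
    (hu : ∀ v, Bd (pd v u)) : Dom μ (h.push D u - X u) := by
  rw [Co.VF.eq co_is hX u, push, P354XO.push, Co.vf_ap, ← Finset.sum_sub_distrib]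
  refine dom_sum hμ _ fun k _ => ?_
  rw [← sub_mul, mul_comm]
  exact Dom.bmul hμ (hu _) (e _)

end Sec

end Vale.Agent.P354XO
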